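import Vale.Agent.P092.H218.NEndA
import Vale.Agent.P092.H305.Mx.StartP

/-!
P092, [MIX] (helper305): helper218's `NEndA` (block [N-GAPB]: the positions) with dead classes of
gaps: only the gaps of the classes in `P` need geometric functions.
-/

set_option linter.all false

open Filter Topology

namespace Vale.Agent.P092.H305.Mx.P

open Vale.Agent.P092.H200 Vale.Agent.P092.H538 Vale.Agent.P092.H553 Vale.Agent.P092.H761
open Vale.Agent.P092.H515 (TTn)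
open Vale.Agent.P092.H218.NR (Cut lm lm_tendsto HMIA ResidA no_midA hs_lift cut_res cut_up mass_abs ul
  ul_le_of tendsto_ul)

section fewA

variable {Γ 𝔾 J : Type} [Group Γ] [DecidableEq Γ] [Group 𝔾] [Fintype J] [DecidableEq J] {t : ℝ}
  {mass : 𝔾 → (Γ → ℝ) → ℝ} {Cpt : Set 𝔾 → Prop} {Ping : (p : ℕ) → (Fin p → 𝔾) → Prop}
  {r : ℕ} {gap : J → Γ → ℝ} {cl : J → Fin r} {m : ℕ} {b : Fin m → ℕ → 𝔾} {𝒦 : Fin m → Set 𝔾}
  {P : Finset (Fin r)}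

/-- `few_big` with tight classes off `A`. -/
theorem few_bigA (h : SharpData t mass Cpt Ping) (hg : Gaps gap cl)
    (hgeo : ∀ θ : Finset J, θ.Nonempty → (∀ i ∈ θ, ∀ j, cl i = cl j → j ∈ θ) →
      (∀ i ∈ θ, cl i ∈ P) → Geo gap θ) (hdead : DeadP mass gap cl b P)
    (hch : GChain Cpt Ping m b 𝒦) {A : Finset (Fin r)}
    (hA : ∀ ε : ℝ, 0 < ε → ∃ R : ℝ, ∀ u, HS b m u →
      mass u (ind fun g => ∃ a, a ∉ A ∧ a ∈ big gap cl R g) ≤ ε)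
    {j n : ℕ} (hj : j ≤ m) (hn : A.card < n + (m - j)) {ε : ℝ} (hε : 0 < ε) :
    ∃ R : ℝ, ∀ w, HS b j w → mass w (ind fun g => n ≤ (big gap cl R g).card) ≤ ε := by
  classical
  by_contra hcon
  push Not at hcon
  obtain ⟨δ, hδ⟩ : ∃ δ : ℝ, δ = ε / (2 ^ r + 1) := ⟨_, rfl⟩
  have hδ0 : 0 < δ := by rw [hδ]; positivity
  have key : ∀ R : ℝ, ∃ Θ : Finset (Fin r), n ≤ Θ.card ∧ ∃ w, HS b j w ∧
      δ ≤ mass w (ind fun g => Θ ⊆ big gap cl R g) := by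
    intro R
    obtain ⟨w, hw, h1⟩ := hcon R
    by_contra hno
    push Not at hno
    have h2 := h.union w (Finset.univ.filter fun Θ : Finset (Fin r) => n ≤ Θ.card)
      (fun g => n ≤ (big gap cl R g).card) (fun Θ g => Θ ⊆ big gap cl R g)
      fun g hg' => ⟨big gap cl R g, by simpa using hg', subset_rfl⟩
    have h3 : ∑ Θ ∈ Finset.univ.filter (fun Θ : Finset (Fin r) => n ≤ Θ.card),
        mass w (ind fun g => Θ ⊆ big gap cl R g) ≤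
        ∑ Θ ∈ Finset.univ.filter (fun Θ : Finset (Fin r) => n ≤ Θ.card), δ := by
      refine Finset.sum_le_sum fun Θ hΘ => ?_
      rw [Finset.mem_filter] at hΘ
      exact (hno Θ hΘ.2 w hw).le
    have h4 : ((Finset.univ.filter fun Θ : Finset (Fin r) => n ≤ Θ.card).card : ℝ) ≤ 2 ^ r := by
      have h5 := Finset.card_le_univ (Finset.univ.filter fun Θ : Finset (Fin r) => n ≤ Θ.card)
      rw [Fintype.card_finset, Fintype.card_fin] at h5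
      exact_mod_cast h5
    rw [Finset.sum_const, nsmul_eq_mul] at h3
    have h6 : ((Finset.univ.filter fun Θ : Finset (Fin r) => n ≤ Θ.card).card : ℝ) * δ ≤
        2 ^ r * δ := mul_le_mul_of_nonneg_right h4 hδ0.le
    have h7 : 2 ^ r * δ < ε := by
      rw [hδ, mul_div_assoc', div_lt_iff₀ (by positivity)]
      nlinarith
    linarith
  choose Θ hΘ w hw hm using fun k : ℕ => key k
  obtain ⟨Θ0, hΘ0⟩ := Finite.exists_infinite_fiber Θ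
  have hinf : (Θ ⁻¹' {Θ0}).Infinite := Set.infinite_coe_iff.1 hΘ0
  obtain ⟨k0, hk0⟩ := hinf.nonempty
  have hk0' : Θ k0 = Θ0 := hk0
  have hT : TTn mass gap cl b j n := by
    refine ⟨δ, Θ0, hδ0, by rw [← hk0']; exact hΘ k0, fun R => ?_⟩
    obtain ⟨k1, hk1⟩ := exists_nat_ge R
    obtain ⟨k, hk, hk2⟩ := hinf.exists_gt k1
    have hk' : Θ k = Θ0 := hk
    refine ⟨w k, hw k, (hm k).trans ?_⟩
    rw [hk']
    refine h.ind_mono (w k) fun g hg' => hg'.trans (big_anti ?_ g)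
    have : (k1 : ℝ) ≤ k := by exact_mod_cast hk2.le
    linarith
  obtain ⟨c, Θ, hc, hcard, hΘ⟩ := ttn_iter h hg hgeo hdead hch hT (m - j) (by omega)
  have e : j + (m - j) = m := by omega
  rw [e] at hΘ
  obtain ⟨R, hR⟩ := hA (c / 2) (half_pos hc)
  obtain ⟨u, hu1, hu2⟩ := hΘ R
  have h3 := hR u hu1
  have h4 : ∃ x ∈ Θ, x ∉ A := by
    by_contra hno
    push Not at hno
    have := Finset.card_le_card (show Θ ⊆ A from hno)
    omega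
  obtain ⟨x, hx1, hx2⟩ := h4
  have h5 : mass u (ind fun g => Θ ⊆ big gap cl R g) ≤
      mass u (ind fun g => ∃ a, a ∉ A ∧ a ∈ big gap cl R g) :=
    h.ind_mono u fun g hg' => ⟨x, hx2, hg' hx1⟩
  linarith

end fewA

section final

variable {Γ 𝔾 S J : Type} [Group Γ] [DecidableEq Γ] [Group 𝔾] [Group S] [Fintype J] [DecidableEq J]
  {t : ℝ} {mass : 𝔾 → (Γ → ℝ) → ℝ} {Cpt : Set 𝔾 → Prop} {Ping : (p : ℕ) → (Fin p → 𝔾) → Prop}
  {r m : ℕ} {gap : J → Γ → ℝ} {cl : J → Fin r} {b : Fin m → ℕ → 𝔾} {𝒦 : Fin m → Set 𝔾}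
  {σ : S →* 𝔾} {i₀ : J} {A P : Finset (Fin r)}

/-- Start at two. -/
theorem start2A (h : SharpData t mass Cpt Ping) (hg : Gaps gap cl)
    (hgeo : ∀ θ : Finset J, θ.Nonempty → (∀ i ∈ θ, ∀ j, cl i = cl j → j ∈ θ) →
      (∀ i ∈ θ, cl i ∈ P) → Geo gap θ) (hdead : DeadP mass gap cl b P)
    (hch : GChain Cpt Ping m b 𝒦)
    (hA : ∀ ε : ℝ, 0 < ε → ∃ R : ℝ, ∀ u, HS b m u →
      mass u (ind fun g => ∃ a, a ∉ A ∧ a ∈ big gap cl R g) ≤ ε) (hrm : A.card ≤ m) (hm : 0 < m)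
    {ε : ℝ} (hε : 0 < ε) :
    ∃ R : ℝ, ∀ N, mass (b ⟨0, hm⟩ N) (ind fun g => 2 ≤ (big gap cl R g).card) ≤ ε := by
  obtain ⟨R, hR⟩ := few_bigA h hg hgeo hdead hch hA (j := 1) (n := 2) hm (by omega) hε
  refine ⟨R, fun N => ?_⟩
  have h1 := hR _ (HS.step hm N HS.one)
  rwa [one_mul] at h1

/-- **The middle gaps are tight along `b^N`.** -/
theorem mid_tightA (h : SharpData t mass Cpt Ping) (hg : Gaps gap cl)
    (hgeo : ∀ θ : Finset J, θ.Nonempty → (∀ i ∈ θ, ∀ j, cl i = cl j → j ∈ θ) →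
      (∀ i ∈ θ, cl i ∈ P) → Geo gap θ) (hdead : DeadP mass gap cl b P)
    (hch : GChain Cpt Ping m b 𝒦) (hm : 2 ≤ m) (hrm : A.card = m)
    (hA : ∀ ε : ℝ, 0 < ε → ∃ R : ℝ, ∀ u, HS b m u →
      mass u (ind fun g => ∃ a, a ∉ A ∧ a ∈ big gap cl R g) ≤ ε) (h0 : 0 < m) (h1 : 1 < m)
    (hσ : ∀ N s, b ⟨0, h0⟩ N * σ s = σ s * b ⟨0, h0⟩ N)
    (hres : ResidA mass gap cl A i₀ (b ⟨0, h0⟩) σ)
    {cc : Filter S} (hcc : ∀ A ∈ cc, ∃ 𝒦 : Set S, Cpt (σ '' 𝒦) ∧ 1 ∈ 𝒦 ∧ 𝒦ᶜ ⊆ A)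
    {e : ℕ → S} (he : Tendsto e atTop cc) (heb : ∀ M, σ (e M) = b ⟨1, h1⟩ M)
    (hHM : HMIA mass gap cl A i₀ (b ⟨0, h0⟩) σ cc) {ε : ℝ} (hε : 0 < ε) :
    ∃ R : ℝ, ∀ᶠ N in atTop, mass (b ⟨0, h0⟩ N) (ind fun g => R ≤ gap i₀ g) ≤ ε := by
  classical
  by_contra hcon
  push Not at hcon
  have hcon' : ∀ k : ℕ, ∃ᶠ N in atTop,
      ε < mass (b ⟨0, h0⟩ N) (ind fun g => 2 * ((k : ℝ) + 1) ≤ gap i₀ g) := fun k => hcon _
  obtain ⟨φ, hφ, hφm⟩ := extraction_forall_of_frequently hcon'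
  obtain ⟨U, hU⟩ : ∃ U : Ultrafilter ℕ, U = (hyperfilter ℕ).map φ := ⟨_, rfl⟩
  have hUt : (U : Filter ℕ) ≤ atTop := by
    rw [hU]
    exact hφ.tendsto_atTop.mono_left Nat.hyperfilter_le_atTop
  obtain ⟨ρ, hρ⟩ : ∃ ρ : ℕ → ℕ, ∀ N, ρ N = Nat.findGreatest (fun k => φ k ≤ N) N :=
    ⟨_, fun _ => rfl⟩
  have hρφ : ∀ k, ρ (φ k) = k := by
    intro k
    rw [hρ, Nat.findGreatest_eq_iff]
    refine ⟨hφ.le_apply, fun _ => le_rfl, fun n hn _ => ?_⟩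
    rw [not_le]
    exact hφ hn
  have hρt : Tendsto ρ atTop atTop := by
    refine tendsto_atTop.2 fun K => ?_
    filter_upwards [eventually_ge_atTop (φ K), eventually_ge_atTop K] with N hN1 hN2
    rw [hρ]
    exact Nat.le_findGreatest hN2 hN1
  obtain ⟨τ, hτ⟩ : ∃ τ : ℕ → ℝ, ∀ N, τ N = (ρ N : ℝ) + 1 := ⟨_, fun _ => rfl⟩
  have hτ0 : ∀ N, 0 < τ N := fun N => by rw [hτ]; positivity
  have hτt : Tendsto τ atTop atTop := by
    have h1 : Tendsto (fun N => (ρ N : ℝ) + 1) atTop atTop :=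
      tendsto_atTop_add_const_right _ _ (tendsto_natCast_atTop_atTop.comp hρt)
    exact h1.congr fun N => (hτ N).symm
  have hC : Cut gap i₀ U (fun N => up gap {i₀} (τ N)) := cut_up hg i₀ hτ0 (hτt.mono_left hUt)
  have hup : ∀ N g, |up gap {i₀} (τ N) g| ≤ 1 := fun N g => by
    rw [abs_of_nonneg (up_mem _ _ _ _).1]; exact (up_mem _ _ _ _).2
  obtain ⟨μ, hμ⟩ : ∃ μ : ℝ, μ = ul U (fun N => mass (b ⟨0, h0⟩ N) (up gap {i₀} (τ N))) := ⟨_, rfl⟩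
  have hlim : Tendsto (fun N => mass (b ⟨0, h0⟩ N) (up gap {i₀} (τ N))) U (𝓝 μ) := by
    rw [hμ]
    exact tendsto_ul (C := 1 * t) fun N => mass_abs h _ (hup N)
  have hμ0 : ε ≤ μ := by
    refine ge_of_tendsto hlim ?_
    rw [hU, Ultrafilter.coe_map, eventually_map]
    refine Eventually.of_forall fun k => (hφm k).le.trans ?_
    refine h.mono _ _ _ 1 (fun g => abs_ind_le _ g) (hup _) fun g => ?_
    by_cases hk : 2 * ((k : ℝ) + 1) ≤ gap i₀ g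
    · rw [ind_pos (P := fun g => 2 * ((k : ℝ) + 1) ≤ gap i₀ g) hk, up_eq_one (hτ0 _)]
      intro j hj
      rw [Finset.mem_singleton] at hj
      rw [hj, hτ, hρφ]
      exact hk
    · rw [ind_neg (P := fun g => 2 * ((k : ℝ) + 1) ≤ gap i₀ g) hk]
      exact (up_mem _ _ _ _).1
  have hlev1 : ∀ ε : ℝ, 0 < ε → ∃ R : ℝ, ∀ N,
      mass (b ⟨0, h0⟩ N) (ind fun g => 2 ≤ (big gap cl R g).card) ≤ ε := fun ε hε =>
    start2A h hg hgeo hdead hch hA hrm.le h0 hε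
  have hlev2 : ∀ ε : ℝ, 0 < ε → ∃ R : ℝ, ∀ N M,
      mass (b ⟨0, h0⟩ N * σ (e M)) (ind fun g => 3 ≤ (big gap cl R g).card) ≤ ε := by
    intro ε hε
    obtain ⟨R, hR⟩ := few_bigA h hg hgeo hdead hch hA (j := 2) (n := 3) hm (by omega) hε
    refine ⟨R, fun N M => ?_⟩
    have h2 := hR _ (HS.step h1 M (HS.step h0 N HS.one))
    rwa [one_mul, ← heb] at h2
  exact no_midA h hg hC (hε.trans_le hμ0) hlim hσ (by omega) (hres U _ hUt hC μ (hε.trans_le hμ0) hlim)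
    hcc hlev1 he hlev2 (hHM U hUt τ hτ0 hτt)

/-- **[N-GAPB], abstract form.** The two sets of the position condition. -/
theorem pos_tightA (h : SharpData t mass Cpt Ping) (hg : Gaps gap cl)
    (hgeo : ∀ θ : Finset J, θ.Nonempty → (∀ i ∈ θ, ∀ j, cl i = cl j → j ∈ θ) →
      (∀ i ∈ θ, cl i ∈ P) → Geo gap θ) (hdead : DeadP mass gap cl b P)
    (hch : GChain Cpt Ping m b 𝒦) (hm : 2 ≤ m) (hrm : A.card = m)
    (hA : ∀ ε : ℝ, 0 < ε → ∃ R : ℝ, ∀ u, HS b m u →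
      mass u (ind fun g => ∃ a, a ∉ A ∧ a ∈ big gap cl R g) ≤ ε) (h0 : 0 < m) (h1 : 1 < m)
    (hσ : ∀ N s, b ⟨0, h0⟩ N * σ s = σ s * b ⟨0, h0⟩ N)
    {Mid : J → Prop} (hres : ∀ i₀, Mid i₀ → ResidA mass gap cl A i₀ (b ⟨0, h0⟩) σ)
    {cc : Filter S} (hcc : ∀ A ∈ cc, ∃ 𝒦 : Set S, Cpt (σ '' 𝒦) ∧ 1 ∈ 𝒦 ∧ 𝒦ᶜ ⊆ A)
    {e : ℕ → S} (he : Tendsto e atTop cc) (heb : ∀ M, σ (e M) = b ⟨1, h1⟩ M)
    (hHM : ∀ i₀, Mid i₀ → HMIA mass gap cl A i₀ (b ⟨0, h0⟩) σ cc) {G2 H2 : Γ → ℝ}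
    (hGH : ∀ R : ℝ, ∃ ρ : ℝ, ∀ g, ρ < G2 g → ρ < H2 g →
      (2 ≤ (big gap cl R g).card ∨ ∃ i, Mid i ∧ R ≤ gap i g)) {ε : ℝ} (hε : 0 < ε) :
    ∃ ρ : ℝ, ∀ᶠ N in atTop, mass (b ⟨0, h0⟩ N) (ind fun g => ρ < G2 g ∧ ρ < H2 g) ≤ ε := by
  classical
  obtain ⟨δ, hδ⟩ : ∃ δ : ℝ, δ = ε / 2 / ((Fintype.card J : ℝ) + 1) := ⟨_, rfl⟩
  have hδ0 : 0 < δ := by rw [hδ]; positivity
  obtain ⟨R1, hR1⟩ := start2A h hg hgeo hdead hch hA hrm.le h0 (half_pos hε)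
  have key : ∀ i : J, ∃ R : ℝ, Mid i → ∀ᶠ N in atTop,
      mass (b ⟨0, h0⟩ N) (ind fun g => R ≤ gap i g) ≤ δ := by
    intro i
    by_cases hi : Mid i
    · obtain ⟨R, hR⟩ := mid_tightA h hg hgeo hdead hch hm hrm hA h0 h1 hσ (hres i hi) hcc he heb (hHM i hi) hδ0
      exact ⟨R, fun _ => hR⟩
    · exact ⟨0, fun h => absurd h hi⟩
  choose Ri hRi using key
  obtain ⟨R, hR⟩ : ∃ R : ℝ, R = max R1 (∑ i, |Ri i|) := ⟨_, rfl⟩
  have hRR : ∀ i, Ri i ≤ R := fun i => by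
    rw [hR]
    refine le_trans ((le_abs_self _).trans ?_) (le_max_right _ _)
    exact Finset.single_le_sum (f := fun i => |Ri i|) (fun i _ => abs_nonneg _) (Finset.mem_univ i)
  obtain ⟨ρ, hρ⟩ := hGH R
  refine ⟨ρ, ?_⟩
  have hev : ∀ᶠ N in atTop, ∀ i, Mid i → mass (b ⟨0, h0⟩ N) (ind fun g => Ri i ≤ gap i g) ≤ δ := by
    rw [eventually_all]
    intro i
    by_cases hi : Mid i
    · filter_upwards [hRi i hi] with N hN _
      exact hN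
    · exact Eventually.of_forall fun N h => absurd h hi
  filter_upwards [hev] with N hN
  -- union bound
  obtain ⟨Q, hQ⟩ : ∃ Q : Option J → Γ → Prop, Q = fun o g =>
      match o with
      | none => 2 ≤ (big gap cl R1 g).card
      | some i => Mid i ∧ Ri i ≤ gap i g := ⟨_, rfl⟩
  have h2 := h.union (b ⟨0, h0⟩ N) (Finset.univ : Finset (Option J))
    (fun g => ρ < G2 g ∧ ρ < H2 g) Q fun g hg' => by
      rcases hρ g hg'.1 hg'.2 with h3 | ⟨i, hi, h3⟩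
      · refine ⟨none, Finset.mem_univ _, ?_⟩
        rw [hQ]
        exact h3.trans (Finset.card_le_card (big_anti (by rw [hR]; exact le_max_left _ _) g))
      · refine ⟨some i, Finset.mem_univ _, ?_⟩
        rw [hQ]
        exact ⟨hi, (hRR i).trans h3⟩
  refine h2.trans ?_
  rw [Fintype.sum_option]
  have h3 : mass (b ⟨0, h0⟩ N) (ind (Q none)) ≤ ε / 2 := by rw [hQ]; exact hR1 N
  have h4 : ∀ i, mass (b ⟨0, h0⟩ N) (ind (Q (some i))) ≤ δ := by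
    intro i
    by_cases hi : Mid i
    · refine (h.ind_mono _ fun g hg' => ?_).trans (hN i hi)
      rw [hQ] at hg'
      exact hg'.2
    · have e1 : ind (Q (some i)) = fun _ : Γ => (0 : ℝ) := by
        funext g
        refine ind_neg (P := Q (some i)) fun hg' => ?_
        rw [hQ] at hg'
        exact hi hg'.1
      rw [e1, h.zero]
      exact hδ0.le
  have h5 : ∑ i, mass (b ⟨0, h0⟩ N) (ind (Q (some i))) ≤ ε / 2 := by
    refine (Finset.sum_le_sum fun i _ => h4 i).trans ?_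
    rw [Finset.sum_const, nsmul_eq_mul, Finset.card_univ, hδ, mul_div_assoc', div_le_iff₀ (by positivity)]
    have : (0 : ℝ) ≤ Fintype.card J := by positivity
    nlinarith
  linarith

end final

section res

variable {Γ 𝔾 S J : Type} [Group Γ] [DecidableEq Γ] [Group 𝔾] [Group S] [Fintype J] [DecidableEq J]
  {t : ℝ} {mass : 𝔾 → (Γ → ℝ) → ℝ} {Cpt : Set 𝔾 → Prop} {Ping : (p : ℕ) → (Fin p → 𝔾) → Prop}
  {r m : ℕ} {gap : J → Γ → ℝ} {cl : J → Fin r} {b : Fin (m + 1) → ℕ → 𝔾}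
  {𝒦 : Fin (m + 1) → Set 𝔾} {bS : Fin m → ℕ → S} {𝒦S : Fin m → Set S}
  {σ : S →* 𝔾} {i₀ : J} {A P : Finset (Fin r)}

/-- dead classes of the residual system -/
theorem dead_res (h : SharpData t mass Cpt Ping) {U : Ultrafilter ℕ} {χ : ℕ → Γ → ℝ}
    (hC : Cut gap i₀ U χ) (hb : ∀ j M, σ (bS j M) = b j.succ M)
    (hdead : DeadP mass gap cl b P) : DeadP (H411.ResX.mr mass U (b 0) χ σ) gap cl bS P := by
  intro ε hε
  obtain ⟨R, hR⟩ := hdead ε hε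
  refine ⟨R, fun j s hs => ?_⟩
  refine ul_le_of (H411.ResX.mr_bd h (cut_res hC) s (fun g => abs_ind_le _ g))
    (Eventually.of_forall fun N => ?_)
  refine le_trans ?_ (hR _ _ (hs_lift hb N hs))
  refine h.mono _ _ _ 1 (hC.mul_abs (fun g => abs_ind_le _ g) N) (fun g => abs_ind_le _ g)
    fun g => ?_
  exact mul_le_of_le_one_left (ind_nonneg _ _) (hC.mem N g).2

/-- **The residual chain**: the input `ResidA` of `pos_tightA`. -/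
theorem residA_of (h : SharpData t mass Cpt Ping) (hg : Gaps gap cl)
    (hgeo : ∀ θ : Finset J, θ.Nonempty → (∀ i ∈ θ, ∀ j, cl i = cl j → j ∈ θ) →
      (∀ i ∈ θ, cl i ∈ P) → Geo gap θ) (hdead : DeadP mass gap cl b P)
    (hσ : ∀ N s, b 0 N * σ s = σ s * b 0 N) (hb : ∀ j M, σ (bS j M) = b j.succ M)
    (hchS : GChain (fun 𝒦 => Cpt (σ '' 𝒦)) (fun p u => Ping p fun l => σ (u l)) m bS 𝒦S)
    (hA : ∀ ε : ℝ, 0 < ε → ∃ R : ℝ, ∀ u, HS b (m + 1) u →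
      mass u (ind fun g => ∃ a, a ∉ A ∧ a ∈ big gap cl R g) ≤ ε) (hcard : A.card = m + 1) :
    ResidA mass gap cl A i₀ (b 0) σ := by
  classical
  intro U χ hU hC μ hμ hlim
  have hD := H411.ResX.resX h (cut_res hC) hσ hμ hlim
  have hT : TTn (H411.ResX.mr mass U (b 0) χ σ) gap cl bS 0 1 :=
    H411.ResX.res_start h (cut_res hC) hσ hμ hlim i₀ hC.large
  obtain ⟨c, Θ, hc, hΘcard, hΘ⟩ := ttn_iter hD hg hgeo (dead_res h hC hb hdead) hchS hT m (by omega)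
  rw [zero_add] at hΘ
  have hsub : Θ ⊆ A := by
    intro x hx
    by_contra hxA
    obtain ⟨R, hR⟩ := hA (c / 2) (half_pos hc)
    obtain ⟨s, hs1, hs2⟩ := hΘ R
    have h1 : H411.ResX.mr mass U (b 0) χ σ s (ind fun g => Θ ⊆ big gap cl R g) ≤ c / 2 := by
      refine ul_le_of (H411.ResX.mr_bd h (cut_res hC) s (fun g => abs_ind_le _ g))
        (Eventually.of_forall fun N => ?_)
      refine le_trans ?_ (hR _ (hs_lift hb N hs1))
      refine h.mono _ _ _ 1 (hC.mul_abs (fun g => abs_ind_le _ g) N) (fun g => abs_ind_le _ g)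
        fun g => ?_
      refine (mul_le_of_le_one_left (ind_nonneg _ _) (hC.mem N g).2).trans ?_
      by_cases hg' : Θ ⊆ big gap cl R g
      · rw [ind_pos (P := fun g => Θ ⊆ big gap cl R g) hg',
          ind_pos (P := fun g => ∃ a, a ∉ A ∧ a ∈ big gap cl R g) ⟨x, hxA, hg' hx⟩]
      · rw [ind_neg (P := fun g => Θ ⊆ big gap cl R g) hg']
        exact ind_nonneg _ _
    linarith
  have hΘA : Θ = A := Finset.eq_of_subset_of_card_le hsub (by omega)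
  refine ⟨c, hc, fun R => ?_⟩
  obtain ⟨s, _, hs⟩ := hΘ R
  refine ⟨s, ?_⟩
  rw [hΘA] at hs
  exact hs

end res

/-- **[N-GAPB] (3), final abstract form** (`A = univ`: one factor; the residual chain is built in). -/
theorem pos_final {Γ 𝔾 S J : Type} [Group Γ] [DecidableEq Γ] [Group 𝔾] [Group S] [Fintype J]
    [DecidableEq J] {t : ℝ} {mass : 𝔾 → (Γ → ℝ) → ℝ} {Cpt : Set 𝔾 → Prop}
    {Ping : (p : ℕ) → (Fin p → 𝔾) → Prop} {r m : ℕ} {gap : J → Γ → ℝ} {cl : J → Fin r}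
    {b : Fin (m + 1) → ℕ → 𝔾} {𝒦 : Fin (m + 1) → Set 𝔾} {bS : Fin m → ℕ → S} {𝒦S : Fin m → Set S}
    {σ : S →* 𝔾} {A P : Finset (Fin r)}
    (h : SharpData t mass Cpt Ping) (hg : Gaps gap cl)
    (hgeo : ∀ θ : Finset J, θ.Nonempty → (∀ i ∈ θ, ∀ j, cl i = cl j → j ∈ θ) →
      (∀ i ∈ θ, cl i ∈ P) → Geo gap θ) (hdead : DeadP mass gap cl b P)
    (hch : GChain Cpt Ping (m + 1) b 𝒦) (hm : 0 < m) (hcard : A.card = m + 1)
    (hA : ∀ ε : ℝ, 0 < ε → ∃ R : ℝ, ∀ u, HS b (m + 1) u →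
      mass u (ind fun g => ∃ a, a ∉ A ∧ a ∈ big gap cl R g) ≤ ε)
    (hσ : ∀ N s, b 0 N * σ s = σ s * b 0 N) (hσi : Function.Injective σ)
    (hb : ∀ j M, σ (bS j M) = b j.succ M) (hK : ∀ j, σ '' 𝒦S j = 𝒦 j.succ)
    {cc : Filter S} (hcc : ∀ A ∈ cc, ∃ 𝒦 : Set S, Cpt (σ '' 𝒦) ∧ 1 ∈ 𝒦 ∧ 𝒦ᶜ ⊆ A)
    (he : Tendsto (bS ⟨0, hm⟩) atTop cc) {Mid : J → Prop}
    (hHM : ∀ i₀, Mid i₀ → HMIA mass gap cl A i₀ (b 0) σ cc) {G2 H2 : Γ → ℝ}
    (hGH : ∀ R : ℝ, ∃ ρ : ℝ, ∀ g, ρ < G2 g → ρ < H2 g →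
      (2 ≤ (big gap cl R g).card ∨ ∃ i, Mid i ∧ R ≤ gap i g)) {ε : ℝ} (hε : 0 < ε) :
    ∃ ρ : ℝ, ∀ᶠ N in atTop, mass (b 0 N) (ind fun g => ρ < G2 g ∧ ρ < H2 g) ≤ ε := by
  have hchS := H411.ResX.gchain_tail hch hσi hb hK
  exact pos_tightA (b := b) (e := bS ⟨0, hm⟩) h hg hgeo hdead hch (by omega) hcard hA
    (Nat.succ_pos m) (by omega) hσ (fun i₀ _ => residA_of h hg hgeo hdead hσ hb hchS hA hcard) hcc he
    (fun M => hb ⟨0, hm⟩ M) hHM hGH hε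

end Vale.Agent.P092.H305.Mx.P
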