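import Vale.Agent.P092.H761.RankDefs

/-!
P092, [MIX] (helper305): the geometric functions `Geo` of a discrete quotient `p : Γ → Γ'` lift to
`Γ`, with the passive size `s₀` as an additional gap which stays bounded, if the kernel of `p` is
discrete for `s₀` and cobounded for `s₀`.
-/

set_option linter.all false

namespace Vale.Agent.P092.H305.Mx

open Vale.Agent.P092.H761

/-- the gaps of `Γ`: those of the image, and the passive size -/
def gp {Γ Γ' J : Type} [Group Γ] [Group Γ'] (p : Γ →* Γ') (gap : J → Γ' → ℝ) (s₀ : Γ → ℝ) :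
    Option J → Γ → ℝ
  | some j => fun g => gap j (p g)
  | none => s₀

/-- A passive size: proper on the kernel, cobounded. -/
structure Pas {Γ Γ' : Type} [Group Γ] [Group Γ'] (p : Γ →* Γ') (s₀ : Γ → ℝ) : Prop where
  surj : Function.Surjective p
  mul : ∀ R : ℝ, ∃ R' : ℝ, ∀ x y, s₀ x ≤ R → s₀ y ≤ R → s₀ (x * y) ≤ R'
  inv : ∀ R : ℝ, ∃ R' : ℝ, ∀ x, s₀ x ≤ R → s₀ x⁻¹ ≤ R'
  ker : ∀ R : ℝ, {n | p n = 1 ∧ s₀ n ≤ R}.Finite
  cob : ∃ C₀ : ℝ, ∀ y, ∃ n, p n = 1 ∧ s₀ (n * y) ≤ C₀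

section lift

variable {Γ Γ' J : Type} [Group Γ] [DecidableEq Γ] [Group Γ'] [DecidableEq Γ'] [Fintype J]
  [DecidableEq J] {p : Γ →* Γ'} {gap : J → Γ' → ℝ} {s₀ : Γ → ℝ}

omit [Group Γ] [DecidableEq Γ] [Group Γ'] in
theorem sum_fib_le (q : Γ → Γ') {B : Finset Γ} {B' : Finset Γ'} (hB : ∀ b ∈ B, q b ∈ B')
    {f : Γ → ℝ} {f' : Γ' → ℝ}
    (h : ∀ b' ∈ B', ∑ b ∈ B.filter (fun b => q b = b'), f b ≤ f' b') :
    ∑ b ∈ B, f b ≤ ∑ b' ∈ B', f' b' := by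
  rw [← Finset.sum_fiberwise_of_maps_to hB]
  exact Finset.sum_le_sum h

/-- the number of sheets over a point -/
theorem card_sheet {A NF : Finset Γ} (h : ∀ b ∈ A, ∀ b' ∈ A, b⁻¹ * b' ∈ NF) :
    A.card ≤ NF.card := by
  rcases A.eq_empty_or_nonempty with h0 | ⟨b₀, h0⟩
  · rw [h0]
    exact Nat.zero_le _
  · exact Finset.card_le_card_of_injOn (fun b => b₀⁻¹ * b) (fun b hb => h b₀ h0 b hb)
      fun x _ y _ hxy => mul_left_cancel hxy

/-- a sum of equal terms over the sheets of a point -/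
theorem sum_sheet {A NF : Finset Γ} {sh : Γ → Prop} [DecidablePred sh]
    (h : ∀ b ∈ A, ∀ b' ∈ A, sh b → sh b' → b⁻¹ * b' ∈ NF) {f : Γ → ℝ} {x α : ℝ} (hx : 0 ≤ x)
    (hα : 0 < α) (hM : (NF.card : ℝ) * α ≤ 1) (hf : ∀ b ∈ A, sh b → f b ≤ α * x)
    (hf0 : ∀ b ∈ A, ¬ sh b → f b ≤ 0) : ∑ b ∈ A, f b ≤ x := by
  have h1 : ∑ b ∈ A, f b ≤ ∑ b ∈ A.filter sh, f b := by
    rw [← Finset.sum_filter_add_sum_filter_not A sh]
    have h2 : ∑ b ∈ A.filter (fun b => ¬ sh b), f b ≤ 0 :=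
      Finset.sum_nonpos fun b hb => hf0 b (Finset.mem_filter.1 hb).1 (Finset.mem_filter.1 hb).2
    linarith
  have h2 : ∑ b ∈ A.filter sh, f b ≤ ∑ b ∈ A.filter sh, α * x :=
    Finset.sum_le_sum fun b hb => hf b (Finset.mem_filter.1 hb).1 (Finset.mem_filter.1 hb).2
  rw [Finset.sum_const, nsmul_eq_mul] at h2
  have h3 : ((A.filter sh).card : ℝ) ≤ NF.card := by
    exact_mod_cast card_sheet fun b hb b' hb' => h b (Finset.mem_filter.1 hb).1 b'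
      (Finset.mem_filter.1 hb').1 (Finset.mem_filter.1 hb).2 (Finset.mem_filter.1 hb').2
  have h4 : ((A.filter sh).card : ℝ) * (α * x) ≤ NF.card * (α * x) :=
    mul_le_mul_of_nonneg_right h3 (mul_nonneg hα.le hx)
  have h5 : (NF.card : ℝ) * (α * x) ≤ 1 * x := by
    rw [← mul_assoc]
    exact mul_le_mul_of_nonneg_right hM hx
  linarith

omit [DecidableEq Γ] [DecidableEq Γ'] in
/-- the fibres of `p` are finite for the passive size -/
theorem Pas.fib (h : Pas p s₀) (b' : Γ') (R : ℝ) : {b | p b = b' ∧ s₀ b ≤ R}.Finite := by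
  obtain ⟨b₀, rfl⟩ := h.surj b'
  obtain ⟨R1, h1⟩ := h.inv (max R (s₀ b₀))
  obtain ⟨R2, h2⟩ := h.mul (max R1 R)
  refine ((h.ker R2).image fun n => b₀ * n).subset fun b hb => ⟨b₀⁻¹ * b, ⟨?_, ?_⟩, ?_⟩
  · rw [map_mul, map_inv, hb.1, inv_mul_cancel]
  · exact h2 _ _ ((h1 _ (le_max_right _ _)).trans (le_max_left _ _))
      (hb.2.trans (le_max_right _ _))
  · change b₀ * (b₀⁻¹ * b) = b
    group

omit [DecidableEq Γ] [DecidableEq Γ'] in
theorem Pas.fins (h : Pas p s₀) (B' : Finset Γ') (R : ℝ) :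
    {b | p b ∈ B' ∧ s₀ b ≤ R}.Finite := by
  refine (B'.finite_toSet.biUnion fun b' _ => h.fib b' R).subset fun b hb => ?_
  exact Set.mem_biUnion (Finset.mem_coe.2 hb.1) ⟨rfl, hb.2⟩

/-- **The lift of the geometric functions.** -/
theorem geoP (hP : Pas p s₀) {θ : Finset J} (hG : Geo gap θ) :
    Geo (gp p gap s₀) (θ.map ⟨some, Option.some_injective J⟩) := by
  classical
  -- the region
  have hlar : ∀ (D : ℝ) (g : Γ), (∀ j ∈ θ.map ⟨some, Option.some_injective J⟩,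
      D ≤ gp p gap s₀ j g) → ∀ j ∈ θ, D ≤ gap j (p g) := fun D g h j hj =>
    h (some j) (Finset.mem_map.2 ⟨j, hj, rfl⟩)
  have hoth : ∀ (R : ℝ) (g : Γ), (∀ j, j ∉ θ.map ⟨some, Option.some_injective J⟩ →
      gp p gap s₀ j g ≤ R) → (∀ j, j ∉ θ → gap j (p g) ≤ R) ∧ s₀ g ≤ R := fun R g h => by
    refine ⟨fun j hj => h (some j) fun h1 => hj ?_, h none fun h1 => ?_⟩
    · obtain ⟨i, hi, e⟩ := Finset.mem_map.1 h1
      exact (Option.some_injective J e) ▸ hi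
    · obtain ⟨i, hi, e⟩ := Finset.mem_map.1 h1
      exact Option.some_ne_none i e
  intro R
  obtain ⟨c, hc0, hc⟩ := hG R
  obtain ⟨C₀, hC₀⟩ := hP.cob
  obtain ⟨I₀, hI₀⟩ := hP.inv C₀
  -- sheets
  have sheet : ∀ X : ℝ, ∃ Y : ℝ, ∀ b g, s₀ g ≤ X → s₀ (b⁻¹ * g) ≤ C₀ → s₀ b ≤ Y := fun X => by
    obtain ⟨Y, hY⟩ := hP.mul (max X I₀)
    refine ⟨Y, fun b g h1 h2 => ?_⟩
    have h3 := hY g (b⁻¹ * g)⁻¹ (h1.trans (le_max_left _ _))
      ((hI₀ _ h2).trans (le_max_right _ _))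
    have e : g * (b⁻¹ * g)⁻¹ = b := by group
    rwa [e] at h3
  obtain ⟨RM, hRM⟩ := hP.mul (max C₀ I₀)
  obtain ⟨RT, hRT⟩ := sheet R
  obtain ⟨IT, hIT⟩ := hP.inv RT
  obtain ⟨RM', hRM'⟩ := hP.mul (max IT RT)
  obtain ⟨NF, hNF⟩ : ∃ NF : Finset Γ, ∀ n, p n = 1 → s₀ n ≤ RM → n ∈ NF :=
    ⟨(hP.ker RM).toFinset, fun n h1 h2 => (hP.ker RM).mem_toFinset.2 ⟨h1, h2⟩⟩
  obtain ⟨NH, hNH⟩ : ∃ NH : Finset Γ, ∀ n, p n = 1 → s₀ n ≤ RM' → n ∈ NH :=
    ⟨(hP.ker RM').toFinset, fun n h1 h2 => (hP.ker RM').mem_toFinset.2 ⟨h1, h2⟩⟩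
  -- the weights
  have wgt : ∀ M : ℕ, ∃ α : ℝ, 0 < α ∧ α ≤ 1 ∧ (M : ℝ) * α ^ 2 ≤ 1 := fun M => by
    refine ⟨1 / ((M : ℝ) + 1), by positivity, ?_, ?_⟩
    · rw [div_le_one (by positivity)]
      have : (0 : ℝ) ≤ M := Nat.cast_nonneg _
      linarith
    · have h0 : (0 : ℝ) ≤ M := Nat.cast_nonneg _
      rw [div_pow, one_pow, mul_one_div, div_le_one (by positivity)]
      nlinarith
  obtain ⟨α, hα0, hα1, hα⟩ := wgt NF.card
  obtain ⟨β, hβ0, hβ1, hβ⟩ := wgt NH.card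
  refine ⟨α * β * c, by positivity, fun S ε hε R1 => ?_⟩
  obtain ⟨B', F', H', D, hF0, hH0, hFo, hHo, hFs, hHs, hl, hr, ho⟩ := hc (S.image p) ε hε R1
  -- the cut-off of `F`
  obtain ⟨Y1, hY1⟩ := sheet R1
  obtain ⟨RS, hRS⟩ : ∃ RS : ℝ, ∀ s ∈ S, s₀ s ≤ RS :=
    ⟨∑ s ∈ S, |s₀ s|, fun s hs => (le_abs_self _).trans
      (Finset.single_le_sum (f := fun s => |s₀ s|) (fun s _ => abs_nonneg _) hs)⟩
  obtain ⟨Y2, hY2⟩ := hP.mul (max RS Y1)
  obtain ⟨R2, hR2⟩ : ∃ R2 : ℝ, R2 = max (max Y1 Y2) RT := ⟨_, rfl⟩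
  have hRT2 : RT ≤ R2 := hR2 ▸ le_max_right _ _
  have hY12 : Y1 ≤ R2 := hR2 ▸ (le_max_left _ _).trans (le_max_left _ _)
  have hY22 : Y2 ≤ R2 := hR2 ▸ (le_max_right _ _).trans (le_max_left _ _)
  obtain ⟨B, hB⟩ : ∃ B : Finset Γ, ∀ b, b ∈ B ↔ p b ∈ B' ∧ s₀ b ≤ R2 :=
    ⟨(hP.fins B' R2).toFinset, fun b => (hP.fins B' R2).mem_toFinset⟩
  obtain ⟨F, hF⟩ : ∃ F : Γ → Γ → ℝ, ∀ b g, F b g =
      if s₀ (b⁻¹ * g) ≤ C₀ ∧ s₀ b ≤ R2 then α * F' (p b) (p g) else 0 := ⟨_, fun _ _ => rfl⟩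
  obtain ⟨H, hH⟩ : ∃ H : Γ → Γ → ℝ, ∀ b g, H b g =
      if s₀ b ≤ RT then β * H' (p b) (p g) else 0 := ⟨_, fun _ _ => rfl⟩
  refine ⟨B, F, H, D, fun b g => ?_, fun b g => ?_, fun b hb g => ?_, fun b hb g => ?_,
    fun g => ?_, fun g => ?_, fun s hs g h1 h2 => ?_, fun t η hη => ?_, fun g h1 h2 => ?_⟩
  · rw [hF]
    split_ifs
    · exact mul_nonneg hα0.le (hF0 _ _)
    · exact le_rfl
  · rw [hH]
    split_ifs
    · exact mul_nonneg hβ0.le (hH0 _ _)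
    · exact le_rfl
  · rw [hF]
    split_ifs with h
    · rw [hFo _ (fun h3 => hb ((hB b).2 ⟨h3, h.2⟩)), mul_zero]
    · rfl
  · rw [hH]
    split_ifs with h
    · rw [hHo _ (fun h3 => hb ((hB b).2 ⟨h3, h.trans hRT2⟩)), mul_zero]
    · rfl
  · refine (sum_fib_le p (fun b hb => ((hB b).1 hb).1) (f' := fun b' => F' b' (p g) ^ 2)
      fun b' _ => ?_).trans (hFs (p g))
    refine sum_sheet (sh := fun b => s₀ (b⁻¹ * g) ≤ C₀) (NF := NF) (α := α ^ 2)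
      (fun b hb b₁ hb₁ h3 h4 => hNF _ ?_ ?_) (sq_nonneg _) (by positivity) hα (fun b hb h3 => ?_)
      fun b hb h3 => ?_
    · rw [map_mul, map_inv, (Finset.mem_filter.1 hb).2, (Finset.mem_filter.1 hb₁).2,
        inv_mul_cancel]
    · have h5 := hRM (b⁻¹ * g) (b₁⁻¹ * g)⁻¹ (h3.trans (le_max_left _ _))
        ((hI₀ _ h4).trans (le_max_right _ _))
      have e : b⁻¹ * g * (b₁⁻¹ * g)⁻¹ = b⁻¹ * b₁ := by group
      rwa [e] at h5
    · rw [hF, (Finset.mem_filter.1 hb).2]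
      split_ifs
      · rw [mul_pow]
      · rw [zero_pow two_ne_zero]
        positivity
    · rw [hF, if_neg fun h4 => h3 h4.1, zero_pow two_ne_zero]
  · refine (sum_fib_le p (fun b hb => ((hB b).1 hb).1) (f' := fun b' => H' b' (p g) ^ 2)
      fun b' _ => ?_).trans (hHs (p g))
    refine sum_sheet (sh := fun b => s₀ b ≤ RT) (NF := NH) (α := β ^ 2)
      (fun b hb b₁ hb₁ h3 h4 => hNH _ ?_ ?_) (sq_nonneg _) (by positivity) hβ (fun b hb h3 => ?_)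
      fun b hb h3 => ?_
    · rw [map_mul, map_inv, (Finset.mem_filter.1 hb).2, (Finset.mem_filter.1 hb₁).2,
        inv_mul_cancel]
    · exact hRM' _ _ ((hIT _ h3).trans (le_max_left _ _)) (h4.trans (le_max_right _ _))
    · rw [hH, (Finset.mem_filter.1 hb).2, if_pos h3, mul_pow]
    · rw [hH, if_neg h3, zero_pow two_ne_zero]
  · obtain ⟨h3, h4⟩ := hoth R1 g h2
    have h5 := hl (p s) (Finset.mem_image_of_mem p hs) (p g) (hlar D g h1) h3
    refine (sum_fib_le p (B' := B' ∪ B'.image fun b => (p s)⁻¹ * b) (fun b hb => ?_)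
      (f' := fun b' => (F' (p s * b') (p s * p g) - F' b' (p g)) ^ 2) fun b' _ => ?_).trans h5
    · rcases Finset.mem_union.1 hb with h6 | h6
      · exact Finset.mem_union_left _ ((hB b).1 h6).1
      · obtain ⟨b₁, h7, rfl⟩ := Finset.mem_image.1 h6
        refine Finset.mem_union_right _ (Finset.mem_image.2 ⟨p b₁, ((hB b₁).1 h7).1, ?_⟩)
        rw [map_mul, map_inv]
    · have key : ∀ b, p b = b' → s₀ (b⁻¹ * g) ≤ C₀ → F (s * b) (s * g) - F b g =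
          α * (F' (p s * b') (p s * p g) - F' b' (p g)) := by
        intro b hb h6
        have h7 := hY1 b g h4 h6
        have h8 := hY2 s b ((hRS s hs).trans (le_max_left _ _)) (h7.trans (le_max_right _ _))
        have e : (s * b)⁻¹ * (s * g) = b⁻¹ * g := by group
        rw [hF, hF, e, if_pos ⟨h6, h8.trans hY22⟩, if_pos ⟨h6, h7.trans hY12⟩, map_mul, map_mul,
          hb, mul_sub]
      have key0 : ∀ b, ¬ s₀ (b⁻¹ * g) ≤ C₀ → F (s * b) (s * g) - F b g = 0 := by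
        intro b h6
        have e : (s * b)⁻¹ * (s * g) = b⁻¹ * g := by group
        rw [hF, hF, e, if_neg fun h7 => h6 h7.1, if_neg fun h7 => h6 h7.1, sub_zero]
      refine sum_sheet (sh := fun b => s₀ (b⁻¹ * g) ≤ C₀) (NF := NF) (α := α ^ 2)
        (fun b hb b₁ hb₁ h3 h4 => hNF _ ?_ ?_) (sq_nonneg _) (by positivity) hα
        (fun b hb h3 => ?_) fun b hb h3 => ?_
      · rw [map_mul, map_inv, (Finset.mem_filter.1 hb).2, (Finset.mem_filter.1 hb₁).2,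
          inv_mul_cancel]
      · have h5 := hRM (b⁻¹ * g) (b₁⁻¹ * g)⁻¹ (h3.trans (le_max_left _ _))
          ((hI₀ _ h4).trans (le_max_right _ _))
        have e : b⁻¹ * g * (b₁⁻¹ * g)⁻¹ = b⁻¹ * b₁ := by group
        rwa [e] at h5
      · rw [key b (Finset.mem_filter.1 hb).2 h3, mul_pow]
      · rw [key0 b h3, zero_pow two_ne_zero]
  · obtain ⟨D', hD'⟩ := hr (p t) η hη
    refine ⟨D', fun g h1 b => ?_⟩
    have h3 := hD' (p g) (hlar D' g h1) (p b)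
    rw [hH, hH, map_mul]
    split_ifs
    · rw [← mul_sub, abs_mul, abs_of_pos hβ0]
      calc β * |H' (p b) (p g * p t) - H' (p b) (p g)| ≤ 1 * η :=
            mul_le_mul hβ1 h3 (abs_nonneg _) zero_le_one
        _ = η := one_mul _
    · rw [sub_zero, abs_zero]
      exact hη.le
  · obtain ⟨h3, h4⟩ := hoth R g h2
    have h5 := ho (p g) (hlar D g h1) h3
    have h6 : ∑ b' ∈ B', α * β * (F' b' (p g) * H' b' (p g)) ≤ ∑ b ∈ B, F b g * H b g := by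
      rw [← Finset.sum_fiberwise_of_maps_to (s := B) (t := B') (g := p)
        (fun b hb => ((hB b).1 hb).1)]
      refine Finset.sum_le_sum fun b' hb' => ?_
      obtain ⟨b₀, hb₀⟩ := hP.surj b'
      obtain ⟨n, hn1, hn2⟩ := hC₀ (b₀⁻¹ * g)
      obtain ⟨b, hbe⟩ : ∃ b, b = b₀ * n⁻¹ := ⟨_, rfl⟩
      have hpb : p b = b' := by rw [hbe, map_mul, map_inv, hn1, inv_one, mul_one, hb₀]
      have h7 : s₀ (b⁻¹ * g) ≤ C₀ := by
        have e : b⁻¹ * g = n * (b₀⁻¹ * g) := by rw [hbe]; group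
        rwa [e]
      have h8 := hRT b g h4 h7
      have hbB : b ∈ B := (hB b).2 ⟨by rw [hpb]; exact hb', h8.trans hRT2⟩
      have h9 : α * β * (F' b' (p g) * H' b' (p g)) = F b g * H b g := by
        rw [hF, hH, if_pos ⟨h7, h8.trans hRT2⟩, if_pos h8, hpb]
        ring
      rw [h9]
      refine Finset.single_le_sum (f := fun b => F b g * H b g) (fun x _ => ?_)
        (Finset.mem_filter.2 ⟨hbB, hpb⟩)
      rw [hF, hH]
      refine mul_nonneg ?_ ?_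
      · split_ifs
        · exact mul_nonneg hα0.le (hF0 _ _)
        · exact le_rfl
      · split_ifs
        · exact mul_nonneg hβ0.le (hH0 _ _)
        · exact le_rfl
    rw [← Finset.mul_sum] at h6
    exact (mul_le_mul_of_nonneg_left h5 (by positivity)).trans h6

end lift

end Vale.Agent.P092.H305.Mx
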