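import Vale.Agent.P092.H34.X.PosPT
import Vale.Agent.P092.H515.Mx.Fam
import Vale.Agent.P092.H305.Mx.EndA

/-!
P092, [MIX] (helper305, from helper515's HPos2 and helper34's PosP, PosPT): the positions of one
factor of the source in one active coordinate of the target, next to a passive size; all
amplifications. The gaps of the other coordinates and the passive size are dead.
-/

set_option linter.all false

open scoped InnerProductSpace ENNReal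
open Filter Topology Matrix ContinuousLinearMap MeasureTheory

namespace Vale.Agent.P092.H305.Mx.Pos

open Vale.Agent.P092.H515.HP (lab lab_inj lab_lt part mem_part lab_mem_part card_part mrp_ph gap_le)
open Vale.Agent.P092.H515.Mx (Len PSys nn psys_fam)
open Vale.Agent.P092.H933 (LocK BCart)
open Vale.Agent.P092.H534.GK (Crt)
open Vale.Agent.P092.H221.GapsC (lg pos_gap bcart_of_crt)
open Vale.Agent.P092.H200 Vale.Agent.P092.H761
open Vale.Agent.P092.H538 (ind ind_pos ind_neg ind_nonneg)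
open Vale.Agent.P092.RC (GG PG YY ct)
open Vale.Agent.P092.H261 (PingT)
open Vale.Agent.P092.SN (PH nm bw)
open Vale.Agent.P092.H218.NR (HMIA hcc_of)
open Vale.Agent.P092.H411.ChS (sg)
open Vale.Agent.P092.H618.HMK (Tests)
open Vale.Agent.P092.H584.Tau (hs_mem)
open Vale.Agent.P092.H305.Mx.P (DeadP pos_final)

/-- gaps off the coordinate `i` are large only where another coordinate or the passive size is
large -/
theorem other_largeM {I : Type} [Fintype I] [DecidableEq I] {k : I → Type}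
    [∀ i, NontriviallyNormedField (k i)] {n : I → ℕ} {Γ : Type} [Group Γ] [DecidableEq Γ]
    {q : ∀ i, Γ → SpecialLinearGroup (Fin (n i)) (k i)} {s : Γ → ℝ}
    {gap : (Σ o : Option I, Fin (nn n o - 1)) → Γ → ℝ}
    (hgs : ∀ x γ, gap ⟨none, x⟩ γ = s γ)
    (h : ∀ i, ∃ c C : ℝ, 0 < c ∧ ∀ γ, ∃ a U U' V V', Crt (q i γ).1 a U U' V V' ∧
      ∀ j : Fin (n i - 1), |gap ⟨some i, j⟩ γ - c * lg a j| ≤ C) (i : I) (r : ℝ) :
    ∃ R : ℝ, ∀ γ, (∃ x, x ∉ part (fun o => nn n o - 1) (some i) ∧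
      x ∈ big gap (lab fun o => nn n o - 1) R γ) →
        (∃ j, j ≠ i ∧ ∃ a b, r < ‖(q j γ).1 a b‖) ∨ r < s γ := by
  choose c C hc hC using h
  choose R hR using fun j => gap_le (q := q j) (gap := fun l γ => gap ⟨some j, l⟩ γ) (hc j) (hC j) r
  refine ⟨max (∑ j, |R j|) r + 1, fun γ hγ => ?_⟩
  obtain ⟨x, hx, hx2⟩ := hγ
  obtain ⟨⟨o, l⟩, rfl, hl⟩ := mem_big.mp hx2
  cases o with
  | none =>
    right
    rw [hgs] at hl
    have := le_max_right (∑ j, |R j|) r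
    linarith
  | some j =>
    left
    have hj : j ≠ i := fun e => hx (lab_mem_part.mpr (by rw [e]))
    refine ⟨j, hj, ?_⟩
    by_contra hcon
    push Not at hcon
    have h1 := hR j γ hcon l
    have h2 : R j ≤ ∑ j, |R j| := (le_abs_self _).trans
      (Finset.single_le_sum (f := fun j => |R j|) (fun j _ => abs_nonneg _) (Finset.mem_univ j))
    have h3 := le_max_left (∑ j, |R j|) r
    linarith

section main

variable {I : Type} [Fintype I] [DecidableEq I] {k : I → Type}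
  [∀ i, NontriviallyNormedField (k i)] [∀ i, ProperSpace (k i)] {N : I → ℕ}
  {E : Type} [Group E] [TopologicalSpace E] [IsTopologicalGroup E] [MeasurableSpace E]
  [BorelSpace E] {Γ : Type} [Group Γ] [DecidableEq Γ] {t : ℝ} {mass : E → (Γ → ℝ) → ℝ}

/-- **[P-HPOS]**, any masses: the powers of the wall element of one source factor. -/
theorem pos_absM (hd : SharpData t mass (fun K : Set E => IsCompact K) (PingT E)) (hk : ∀ j, LocK (k j)) (hN : ∀ j, 0 < N j) {q : ∀ j, Γ → GG (k j) (N j)}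
    (hq : ∀ j, PH (q j)) {s : Γ → ℝ} (hs : Len s)
    (disc : ∀ C : ℝ, {γ : Γ | (∀ j, nm (q j γ) ≤ C) ∧ s γ ≤ C}.Finite)
    {k₀ : Type} [NontriviallyNormedField k₀] [ProperSpace k₀] {m : ℕ} (hm : 0 < m)
    {ι : GG k₀ (m + 1) →* E} {a : E →* PG k₀ (m + 2)} (hι : Continuous ι)
    (hcomp : ∀ g, a (ι g) = H35.sp k₀ (m + 2) g) {w : k₀ˣ} (hw : ‖(w : k₀)‖ < 1)
    (j : I) (hj : N j = m + 1)
    (ht : ∀ ε : ℝ, 0 < ε → ∃ r : ℝ, ∀ g : GG k₀ (m + 1),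
      mass (ι g) (ind fun γ => (∃ j', j' ≠ j ∧ r < nm (q j' γ)) ∨ r < s γ) ≤ ε)
    {z : E} (hz : z ∈ ι.range) (hzσ : ∀ n s, z ^ n * sg ι s = sg ι s * z ^ n)
    (hch : ∃ (b : Fin (m + 1) → ℕ → E) (𝒦 : Fin (m + 1) → Set E),
      GChain (fun K : Set E => IsCompact K) (PingT E) (m + 1) b 𝒦 ∧
      (∀ M, b 0 M = z ^ M) ∧ (∀ j M, sg ι (H411.ChS.bS w j M) = b j.succ M) ∧
      ∀ j, sg ι '' H411.ChS.KS k₀ j = 𝒦 j.succ)
    (hmi : ∀ {J : Type} [Fintype J] [DecidableEq J] {r : ℕ} {gap : J → Γ → ℝ} {cl : J → Fin r}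
      {A : Finset (Fin r)} {i₀ : J}, Gaps gap cl → Tests gap cl A i₀ →
      HMIA mass gap cl A i₀ (fun n => z ^ n) (sg ι) (cocompact (GG k₀ m)))
    {ε : ℝ} (hε : 0 < ε) :
    ∃ r : ℝ, ∀ᶠ n : ℕ in atTop, mass (z ^ n) (ind fun γ => r < H337.NG.G2 (q j γ) ∧
      r < H337.NG.G2 (ct (q j γ))) ≤ ε := by
  haveI : Nonempty I := ⟨j⟩
  obtain ⟨gap, wt, hp, hfin, hgs, -, -, -, -, hcrt, -⟩ := psys_fam (n := fun i => N i + 1) hk
    (fun i => by have := hN i; omega) q hq hs disc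
  obtain ⟨b, 𝒦, hch, hb0, hbS, hKS⟩ := hch
  have hbz : b 0 = fun n => z ^ n := funext hb0
  have hcl := lab_inj fun o => nn (fun i => N i + 1) o - 1
  have hg : Gaps gap (lab fun o => nn (fun i => N i + 1) o - 1) := hp.gaps hfin _
    (fun R => ⟨R, fun i i' h g hg => by rw [← hcl h]; exact hg⟩)
  obtain ⟨c, C, hc, hC⟩ := hcrt j
  -- the set off the coordinate
  have hA : ∀ ε : ℝ, 0 < ε → ∃ R : ℝ, ∀ lv u, HS b lv u →
      mass u (ind fun g => ∃ a, a ∉ part (fun o => nn (fun i => N i + 1) o - 1) (some j) ∧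
        a ∈ big gap (lab fun o => nn (fun i => N i + 1) o - 1) R g) ≤ ε := by
    intro ε hε
    obtain ⟨r, hr⟩ := ht ε hε
    obtain ⟨R, hR⟩ := other_largeM (q := q) (gap := gap) hgs hcrt j r
    refine ⟨R, fun lv u hu => ?_⟩
    have hmem : u ∈ ι.range := by
      refine hs_mem (S := ι.range) (fun x M => ?_) hu
      refine Fin.cases ?_ (fun x => ?_) x
      · rw [hb0]; exact pow_mem hz M
      · rw [← hbS]; exact ⟨_, rfl⟩
    obtain ⟨g, rfl⟩ := hmem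
    have h1 := hd.ind_mono (ι g) (P := fun γ => ∃ a, a ∉ part (fun o => nn (fun i => N i + 1) o - 1) (some j) ∧
        a ∈ big gap (lab fun o => nn (fun i => N i + 1) o - 1) R γ)
      (Q := fun γ => (∃ j', j' ≠ j ∧ r < nm (q j' γ)) ∨ r < s γ) (fun γ hγ => by
        refine (hR γ hγ).imp (fun h => ?_) fun h => h
        obtain ⟨j', hj', x, y, hxy⟩ := h
        exact ⟨j', hj', hxy.trans_le (H776.NG.le_nmx (q j' γ).1 x y)⟩)
    exact h1.trans (hr g)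
  -- the middle gaps
  obtain ⟨Mid, hMid⟩ : ∃ Mid : (Σ o : Option I, Fin (nn (fun i => N i + 1) o - 1)) → Prop, ∀ x, Mid x ↔
      ∃ l : Fin (N j + 1 - 1), 0 < (l : ℕ) ∧ (l : ℕ) + 1 < N j + 1 - 1 ∧ x = ⟨some j, l⟩ :=
    ⟨_, fun x => Iff.rfl⟩
  have hGH : ∀ R : ℝ, ∃ ρ : ℝ, ∀ γ, ρ < H337.NG.G2 (q j γ) → ρ < H337.NG.G2 (ct (q j γ)) →
      (2 ≤ (big gap (lab fun o => nn (fun i => N i + 1) o - 1) R γ).card ∨ ∃ i, Mid i ∧ R ≤ gap i γ) := by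
    intro R
    obtain ⟨ρ, hρ⟩ := pos_gap (k := k j) (n := N j + 1) (by have := hN j; omega) hc (max C 1) R
    refine ⟨ρ, fun γ h1 h2 => ?_⟩
    have hdet : (q j γ).1.det = 1 := (q j γ).2
    have hB : BCart (q j γ).1 (fun l => gap ⟨some j, l⟩ γ) c (max C 1) := by
      obtain ⟨a, U, U', V, V', H, hx⟩ := hC γ
      exact bcart_of_crt H (H.ne (by rw [hdet]; exact one_ne_zero)) (le_max_right _ _)
        fun l => (hx l).trans (le_max_left _ _)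
    rw [H776.NG.G2_eq] at h1
    have h2 : ρ < H776.NG.G2 ((q j γ).1)⁻¹ := by
      rw [← H776.NG.G2_inv_eq, ← H337.NG.G2_ta]
      exact h2
    rcases hρ (q j γ).1 (fun l => gap ⟨some j, l⟩ γ) (by rw [hdet, norm_one]) hB h1 h2 with
      ⟨x, y, hxy, hx, hy⟩ | ⟨l, hl0, hl1, hl⟩
    · refine Or.inl (Finset.one_lt_card.2 ⟨_, mem_big.2 ⟨⟨some j, x⟩, rfl, hx⟩, _,
        mem_big.2 ⟨⟨some j, y⟩, rfl, hy⟩, fun h => hxy ?_⟩)
      exact eq_of_heq (Sigma.mk.inj_iff.1 (hcl h)).2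
    · refine Or.inr ⟨⟨some j, l⟩, (hMid _).2 ⟨l, by omega, ?_, rfl⟩, hl⟩
      have := l.2
      omega
  have hHM : ∀ i₀, Mid i₀ → HMIA mass gap (lab fun o => nn (fun i => N i + 1) o - 1)
      (part (fun o => nn (fun i => N i + 1) o - 1) (some j)) i₀ (b 0) (sg ι) (cocompact (GG k₀ m)) := by
    intro i₀ h
    obtain ⟨l, hl0, hl1, rfl⟩ := (hMid _).1 h
    rw [hbz]
    refine hmi hg ?_
    exact H100.Ker.tests_of (M := fun γ => (q j γ).1) (mrp_ph (hq j)) (fun l => ⟨some j, l⟩)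
      (fun x y hxy => (lab_lt fun o => nn (fun i => N i + 1) o - 1).2 hxy) (fun x y hxy => hcl hxy)
      (fun y => lab_mem_part.2 rfl) hc hC l hl0 hl1
  have hcard : (part (fun o => nn (fun i => N i + 1) o - 1) (some j)).card = m + 1 := by
    rw [card_part]
    change N j + 1 - 1 = m + 1
    omega
  have hgeo : ∀ θ : Finset (Σ o : Option I, Fin (nn (fun i => N i + 1) o - 1)), θ.Nonempty →
      (∀ i ∈ θ, ∀ j, lab (fun o => nn (fun i => N i + 1) o - 1) i =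
        lab (fun o => nn (fun i => N i + 1) o - 1) j → j ∈ θ) →
      (∀ i ∈ θ, lab (fun o => nn (fun i => N i + 1) o - 1) i ∈
        part (fun o => nn (fun i => N i + 1) o - 1) (some j)) → Geo gap θ := by
    intro θ _ _ hθ
    refine hp.geo hfin θ fun x hx hn => ?_
    obtain ⟨o, l⟩ := x
    have h1 := lab_mem_part.1 (hθ _ hx)
    have h2 : o = none := hn
    rw [h2] at h1
    exact absurd h1 (by simp)
  obtain ⟨ρ, hρ⟩ := pos_final (S := GG k₀ m) (σ := sg ι)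
    (A := part (fun o => nn (fun i => N i + 1) o - 1) (some j)) hd hg hgeo hA hch hm hcard
    (fun ε hε => (hA ε hε).imp fun R hR u hu => hR _ u hu) (fun n s => by rw [hb0]; exact hzσ n s)
    (H411.ChS.sg_inj hcomp) hbS hKS (hcc_of (H411.ChS.sg_cont hι)) (H411.ChS.bS_tendsto hw hm)
    hHM hGH hε
  exact ⟨ρ, hρ.mono fun n hn => by rw [hb0] at hn; exact hn⟩

end main

/-! ### Vectors -/

section vec

open Vale.Agent.P092.SR Vale.Agent.P092.H160 Vale.Agent.P092.H103 Vale.Agent.P092.H962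
open Vale.Agent.P092.RC (PicF adjV3)
open Vale.Agent.P092.H21 (Hon mT WT)
open Vale.Agent.P092.SNT (TVEF tv_tri)
open Vale.Agent.P092.H34.HMK
open Vale.Agent.P092.H337.NG (G2)

section fam

variable {E : Type} [Group E] [TopologicalSpace E] [IsTopologicalGroup E] [LocallyCompactSpace E]
  [SecondCountableTopology E] [T2Space E] [MeasurableSpace E] [BorelSpace E]
  {Γ : Subgroup E} [DiscreteTopology Γ] [Countable Γ] [MeasurableSpace (E ⧸ Γ)]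
  [BorelSpace (E ⧸ Γ)] {ν : Measure (E ⧸ Γ)} [IsProbabilityMeasure ν]
  (hν : ∀ g : E, ν.map (fun x => g • x) = ν)
  {κ κ' ℋ : Type} [Fintype κ] [Fintype κ'] [NormedAddCommGroup ℋ] [InnerProductSpace ℂ ℋ]
  [CompleteSpace ℋ] {V R₁ R₂ : Γ →* (ℋ →L[ℂ] ℋ)} {ξ : κ → ℋ} {ξ' : κ' → ℋ}
  (hT : Tri V R₁ R₂ ξ) (hh : Hon R₁ R₂ ξ) (hT' : Tri R₁ V R₂ ξ')
  (hΓ : ∀ g : Γ, g ≠ 1 → Set.Infinite {y : Γ | ∃ h, y = h * g * h⁻¹})

variable {κ₀ : Type} [Fintype κ₀] {Ω : κ₀ → Lp ℋ 2 (H85.cdat ν hν).μ}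
  (pic : PicF (H34.Ind.pi (H85.cdat ν hν) (V := V) hT.adjV) (H34.Ind.lam (H85.cdat ν hν) R₁)
    (WT (H85.cdat ν hν) R₂) Ω)
  (htv : TVEF (H34.Ind.pi (H85.cdat ν hν) (V := V) hT.adjV) (H34.Ind.lam (H85.cdat ν hν) R₁)
    (WT (H85.cdat ν hν) R₂) Ω)

include hh hT' hΓ pic htv in
/-- **The positions for the honest family**: vectors. -/
theorem posM_vec {I : Type} [Fintype I] [DecidableEq I] {k : I → Type}
    [∀ i, NontriviallyNormedField (k i)] [∀ i, ProperSpace (k i)] {N : I → ℕ}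
    (hk : ∀ j, LocK (k j)) (hN : ∀ j, 0 < N j) {q : ∀ j, Γ → GG (k j) (N j)}
    (hq : ∀ j, PH (q j)) {s : Γ → ℝ} (hs : Len s)
    (disc : ∀ C : ℝ, {γ : Γ | (∀ j, nm (q j γ) ≤ C) ∧ s γ ≤ C}.Finite)
    {k₀ : Type} [NontriviallyNormedField k₀] [ProperSpace k₀] (hk₀ : LocK k₀) {N₀ : ℕ}
    (hN₀ : 2 ≤ N₀) {ι : GG k₀ N₀ →* E} {a : E →* PG k₀ (N₀ + 1)}
    (hι : Continuous ι) (ha : Continuous a) (hcomp : ∀ g (x : YY k₀ N₀), a (ι g) • x = g • x)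
    {w : k₀ˣ} (hw : ‖(w : k₀)‖ < 1) (j : I) (hj : N j = N₀) {c : ℂ} (hc : c ≠ 0)
    (ht : ∀ ε : ℝ, 0 < ε → ∃ r : ℝ, ∀ g : GG k₀ N₀, ∀ i,
      ‖H859.CL.st (mT (H85.cdat ν hν) hT) {γ | (∃ j', j' ≠ j ∧ r < nm (q j' γ)) ∨ r < s γ}
        (H34.Ind.pi (H85.cdat ν hν) (V := V) hT.adjV (ι g)
          (Lp.const 2 (H85.cdat ν hν).μ (c • ξ i)))‖ ≤ ε)
    {b : E} (hb : b = ι (bw w) ∨ b = (ι (bw w))⁻¹) (i : κ) {ε : ℝ} (hε : 0 < ε) :
    ∃ r : ℝ, ∀ᶠ n : ℕ in atTop, ‖H859.CL.st (mT (H85.cdat ν hν) hT)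
      {γ | r < G2 (q j γ) ∧ r < G2 (ct (q j γ))}
      (H34.Ind.pi (H85.cdat ν hν) (V := V) hT.adjV (b ^ n)
        (Lp.const 2 (H85.cdat ν hν).μ (c • ξ i)))‖ ≤ ε := by
  classical
  obtain ⟨m, rfl⟩ : ∃ m, N₀ = m + 1 := ⟨N₀ - 1, by omega⟩
  have hm : 0 < m := by omega
  have hcc : ∀ g, a (ι g) = H35.sp k₀ (m + 2) g := fun g => H776.NE.eq_sp hcomp g
  have ht' := fun (ε : ℝ) (hε : 0 < ε) => mX_of_vec hν hT hh hT' hΓ hc (u := fun g => ι g)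
    (S := fun r => {γ | (∃ j', j' ≠ j ∧ r < nm (q j' γ)) ∨ r < s γ}) ht hε
  have hd := sharp_mX hν hT hT' hΓ
  rcases hb with rfl | rfl
  · exact vec_of_mX hν hT hh hT' hΓ (S := fun r => {γ | r < G2 (q j γ) ∧ r < G2 (ct (q j γ))})
      (fun ε hε => pos_absM hd hk hN hq hs disc hm hι hcc hw j hj ht' ⟨_, rfl⟩
        (fun n s => H411.ChS.sg_comm_pow w n s) (H411.ChS.exists_chain hι ha hcc hw)
        (fun hg hTs => hmiT_A hν hT hh hT' hΓ pic htv hk₀ (by omega) hι hw hg hTs) hε) c i hε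
  · exact vec_of_mX hν hT hh hT' hΓ (S := fun r => {γ | r < G2 (q j γ) ∧ r < G2 (ct (q j γ))})
      (fun ε hε => pos_absM hd hk hN hq hs disc hm hι hcc hw j hj ht' (z := (ι (bw w))⁻¹)
        ⟨(bw w)⁻¹, map_inv _ _⟩
        (fun n s => H411.ChS.sg_comm_inv_pow w n s) (H411.ChS.exists_chain_inv hι ha hcc hw)
        (fun hg hTs => hmiT_inv hν hT hh hT' hΓ pic htv hk₀ (by omega) hι hw hg hTs) hε) c i hε

end fam

section hh

variable {E : Type} [Group E] [TopologicalSpace E] [IsTopologicalGroup E] [LocallyCompactSpace E]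
  [SecondCountableTopology E] [T2Space E] [NoncompactSpace E] [MeasurableSpace E] [BorelSpace E]
  {Γ : Subgroup E} [DiscreteTopology Γ] [Countable Γ] [MeasurableSpace (E ⧸ Γ)]
  [BorelSpace (E ⧸ Γ)] {ν : Measure (E ⧸ Γ)} [IsProbabilityMeasure ν]
  (hν : ∀ g : E, ν.map (fun x => g • x) = ν)
  (hΓ : ∀ g : Γ, g ≠ 1 → Set.Infinite {y : Γ | ∃ h, y = h * g * h⁻¹})
  {Λ : Type} [Group Λ] [Countable Λ]
  (hΛ : ∀ s : Λ, s ≠ 1 → Set.Infinite {y : Λ | ∃ h, y = h * s * h⁻¹})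
  {I₀ : Type} [Fintype I₀] {α : Γ → (Ell2 (I₀ × Λ) →L[ℂ] Ell2 (I₀ × Λ))} (hα : AF α)
  {κ : Type} [Fintype κ] {ξ : κ → HH (PT α α α)}
  (hT : Tri (V3 hα hα hα) (A3R hα hα hα) (B3R hα hα hα) ξ)

include hΓ hΛ in
/-- **The positions, all amplifications**: with a passive size. -/
theorem posM_HH (hh : Hon (A3R hα hα hα) (B3R hα hα hα) ξ) {I : Type} [Fintype I] [DecidableEq I]
    {k : I → Type} [∀ i, NontriviallyNormedField (k i)] [∀ i, ProperSpace (k i)] {N : I → ℕ}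
    (hk : ∀ j, LocK (k j)) (hN : ∀ j, 0 < N j) {q : ∀ j, Γ → GG (k j) (N j)}
    (hq : ∀ j, PH (q j)) {s : Γ → ℝ} (hs : Len s)
    (disc : ∀ C : ℝ, {γ : Γ | (∀ j, nm (q j γ) ≤ C) ∧ s γ ≤ C}.Finite)
    {k₀ : Type} [NontriviallyNormedField k₀] [ProperSpace k₀] (hk₀ : LocK k₀) {N₀ : ℕ}
    (hN₀ : 2 ≤ N₀) {ι : GG k₀ N₀ →* E} {a : E →* PG k₀ (N₀ + 1)}
    (hι : Continuous ι) (ha : Continuous a) (hcomp : ∀ g (x : YY k₀ N₀), a (ι g) • x = g • x)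
    {w : k₀ˣ} (hw : ‖(w : k₀)‖ < 1) (j : I) (hj : N j = N₀)
    (ht : ∀ ε : ℝ, 0 < ε → ∃ r : ℝ, ∀ g : GG k₀ N₀, ∀ i,
      ‖H859.CL.st (mT (H85.cdat ν hν) hT) {γ | (∃ j', j' ≠ j ∧ r < nm (q j' γ)) ∨ r < s γ}
        (H34.Ind.pi (H85.cdat ν hν) (V := V3 hα hα hα) hT.adjV (ι g) (H34.AmpE.nrm hν ξ i))‖ ≤ ε)
    {b : E} (hb : b = ι (bw w) ∨ b = (ι (bw w))⁻¹) (i : κ) {ε : ℝ} (hε : 0 < ε) :
    ∃ r : ℝ, ∀ᶠ n : ℕ in atTop, ‖H859.CL.st (mT (H85.cdat ν hν) hT)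
      {γ | r < G2 (q j γ) ∧ r < G2 (ct (q j γ))}
      (H34.Ind.pi (H85.cdat ν hν) (V := V3 hα hα hα) hT.adjV (b ^ n) (H34.AmpE.nrm hν ξ i))‖ ≤ ε := by
  obtain ⟨m', m'', ζ, h'⟩ := exists_tri' hα hα hα hΛ
  exact posM_vec hν hT hh h' hΓ (picE_HH hν hΓ hΛ hα hT) (tvE_HH hν hα hT) hk hN hq hs disc hk₀ hN₀
    hι ha hcomp hw j hj (c := (((Real.sqrt (∑ j, ‖ξ j‖ ^ 2))⁻¹ : ℝ) : ℂ)) (RC.nrm_ne hT.ne) ht hb i
    hε

end hh

end vec

end Vale.Agent.P092.H305.Mx.Pos
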