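import Vale.Agent.P092.H761.Sharp
import Vale.Agent.P092.H305.Mx.GeoP

/-!
P092, [MIX] (helper305): the chain argument of the sharp rank theorem (helper515's `H515/Start`) with
a dead class of gaps: a class which stays bounded, in mass, along all the products of the chain does
not count, and the geometric functions are not needed for it.
-/

set_option linter.all false

open Filter Topology

namespace Vale.Agent.P092.H305.Mx

open Vale.Agent.P092.H200 Vale.Agent.P092.H538 Vale.Agent.P092.H553 Vale.Agent.P092.H761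

section chain

variable {Γ 𝔾 J : Type} [Group Γ] [DecidableEq Γ] [Group 𝔾] [Fintype J] [DecidableEq J] {t : ℝ}
  {mass : 𝔾 → (Γ → ℝ) → ℝ} {Cpt : Set 𝔾 → Prop} {Ping : (p : ℕ) → (Fin p → 𝔾) → Prop}
  {r : ℕ} {gap : J → Γ → ℝ} {cl : J → Fin r} {m : ℕ} {b : Fin m → ℕ → 𝔾} {𝒦 : Fin m → Set 𝔾}
  {d : Fin r}

/-- After `j` steps some set of at least `n` live classes of gaps is simultaneously unbounded, with
mass bounded below, along the products `HS b j`. -/
def TTd (mass : 𝔾 → (Γ → ℝ) → ℝ) (gap : J → Γ → ℝ) (cl : J → Fin r) (b : Fin m → ℕ → 𝔾)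
    (d : Fin r) (j n : ℕ) : Prop :=
  ∃ (c : ℝ) (Θ : Finset (Fin r)), 0 < c ∧ n ≤ Θ.card ∧ d ∉ Θ ∧ ∀ R : ℝ, ∃ h, HS b j h ∧
    c ≤ mass h (ind fun g => Θ ⊆ big gap cl R g)

/-- The class `d` is dead: it stays bounded, in mass, along all products. -/
def Dead (mass : 𝔾 → (Γ → ℝ) → ℝ) (gap : J → Γ → ℝ) (cl : J → Fin r) (b : Fin m → ℕ → 𝔾)
    (d : Fin r) : Prop :=
  ∀ ε : ℝ, 0 < ε → ∃ R : ℝ, ∀ n h, HS b n h → mass h (ind fun g => d ∈ big gap cl R g) ≤ ε

theorem ttd_step (h : SharpData t mass Cpt Ping) (hg : Gaps gap cl)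
    (hgeo : ∀ θ : Finset J, θ.Nonempty → (∀ i ∈ θ, ∀ j, cl i = cl j → j ∈ θ) →
      (∀ i ∈ θ, cl i ≠ d) → Geo gap θ)
    (hdead : Dead mass gap cl b d) (hch : GChain Cpt Ping m b 𝒦) {j n : ℕ} (hj : j < m)
    (hT : TTd mass gap cl b d j n) : TTd mass gap cl b d (j + 1) (n + 1) := by
  classical
  by_contra hcon
  obtain ⟨c0, Θ, hc0, hΘcard, hdΘ, hTm⟩ := hT
  choose Rc hRc using hg.comp
  obtain ⟨ρ, hρ⟩ : ∃ ρ : ℕ → ℝ, ∀ k, ρ k = Rc (2 * ((k : ℝ) + 1)) + 1 := ⟨_, fun _ => rfl⟩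
  choose w hwH hwm using fun k : ℕ => hTm (ρ k)
  obtain ⟨U, hU⟩ : ∃ U : Ultrafilter ℕ, (U : Filter ℕ) ≤ atTop :=
    ⟨hyperfilter ℕ, Nat.hyperfilter_le_atTop⟩
  obtain ⟨j0, hj0⟩ : ∃ j0 : Fin m, j0 = ⟨j, hj⟩ := ⟨_, rfl⟩
  obtain ⟨θ, hθ⟩ : ∃ θ : Finset J, θ = Finset.univ.filter fun j => cl j ∈ Θ := ⟨_, rfl⟩
  have hmemθ : ∀ j, j ∈ θ ↔ cl j ∈ Θ := fun j => by rw [hθ, Finset.mem_filter]; simp
  have hlarge : ∀ (k : ℕ) (g : Γ), Θ ⊆ big gap cl (ρ k) g →
      ∀ j ∈ θ, 2 * ((k : ℝ) + 1) ≤ gap j g := by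
    intro k g hsub j hj
    obtain ⟨i, hi1, hi2⟩ := mem_big.mp (hsub ((hmemθ j).mp hj))
    by_contra hc
    push Not at hc
    have h1 := hRc (2 * ((k : ℝ) + 1)) j i hi1.symm g hc.le
    rw [hρ] at hi2
    linarith
  have hclass : ∀ c ∈ Θ, ∃ j, cl j = c := by
    intro c hc
    by_contra hne
    have h2 : (ind fun g => Θ ⊆ big gap cl (ρ 0) g) = fun _ : Γ => (0 : ℝ) := by
      funext g
      refine ind_neg (P := fun g => Θ ⊆ big gap cl (ρ 0) g) fun hsub => hne ?_
      obtain ⟨j, hj, _⟩ := mem_big.mp (hsub hc)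
      exact ⟨j, hj⟩
    have h1 := hwm 0
    rw [h2, h.zero] at h1
    linarith
  have hθgeo : Geo gap θ := by
    rcases θ.eq_empty_or_nonempty with h1 | h1
    · rw [h1]; exact geo_empty hg
    · refine hgeo θ h1 (fun i hi j hij => ?_) fun i hi hid => ?_
      · rw [hmemθ] at hi ⊢
        rwa [← hij]
      · rw [hmemθ, hid] at hi
        exact hdΘ hi
  -- a uniform bound for the other classes
  obtain ⟨δ, hδ0, hδ⟩ : ∃ δ : ℝ, 0 < δ ∧ (r : ℝ) * (2 * δ) ≤ c0 / 4 := by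
    refine ⟨c0 / (8 * ((r : ℝ) + 1)), by positivity, ?_⟩
    rw [mul_div_assoc', mul_div_assoc', div_le_div_iff₀ (by positivity) (by positivity)]
    nlinarith
  obtain ⟨F0, C1, hC1, hF0⟩ := h.unif (𝒦 j0) (hch.cpt j0) δ hδ0
  obtain ⟨δ1, hδ1, hδ10⟩ : ∃ δ1 : ℝ, δ1 = δ / (C1 + 1) ∧ 0 < δ1 := ⟨_, rfl, by positivity⟩
  have hR1 : ∀ x : Fin r, ∃ R : ℝ, x ∉ Θ → ∀ h, HS b (j + 1) h →
      mass h (ind fun g => insert x Θ ⊆ big gap cl R g) ≤ δ1 := by
    intro x
    by_cases hxd : x = d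
    · obtain ⟨R, hR⟩ := hdead δ1 hδ10
      refine ⟨R, fun _ h' hh' => ?_⟩
      refine (h.ind_mono (P := fun g => insert x Θ ⊆ big gap cl R g)
        (Q := fun g => d ∈ big gap cl R g) h' fun g hg' => ?_).trans (hR _ h' hh')
      exact hg' (by rw [hxd]; exact Finset.mem_insert_self _ _)
    by_contra hx
    push Not at hx
    refine hcon ⟨δ1, insert x Θ, hδ10, ?_, ?_, fun R => ?_⟩
    · rw [Finset.card_insert_of_notMem (hx 0).1]; omega
    · rw [Finset.mem_insert, not_or]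
      exact ⟨fun e => hxd e.symm, hdΘ⟩
    · obtain ⟨_, h', h1, h2⟩ := hx R
      exact ⟨h', h1, h2.le⟩
  choose Rx hRx using hR1
  obtain ⟨R', hR'⟩ : ∃ R' : ℝ, ∀ x, Rx x ≤ R' := by
    refine ⟨∑ x, |Rx x|, fun x => (le_abs_self _).trans ?_⟩
    exact Finset.single_le_sum (f := fun x => |Rx x|) (fun x _ => abs_nonneg _) (Finset.mem_univ x)
  choose Cq hCq using hg.quasi
  obtain ⟨CF, hCF⟩ : ∃ CF : ℝ, ∀ a ∈ F0, ∀ b ∈ F0, Cq a b ≤ CF := by
    refine ⟨∑ a ∈ F0, ∑ b ∈ F0, |Cq a b|, fun a ha b hb => (le_abs_self _).trans ?_⟩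
    refine le_trans ?_ (Finset.single_le_sum (f := fun a => ∑ b ∈ F0, |Cq a b|)
      (fun a _ => Finset.sum_nonneg fun b _ => abs_nonneg _) ha)
    exact Finset.single_le_sum (f := fun b => |Cq a b|) (fun b _ => abs_nonneg _) hb
  obtain ⟨R, hR⟩ : ∃ R : ℝ, R = R' + CF := ⟨_, rfl⟩
  -- the bad set
  obtain ⟨bad, hbad⟩ : ∃ bad : Γ → Prop, ∀ g, bad g ↔ ∃ x, x ∉ Θ ∧ insert x Θ ⊆ big gap cl R g :=
    ⟨_, fun _ => Iff.rfl⟩
  have hbadm : ∀ h', HS b (j + 1) h' → ∀ κ ∈ 𝒦 j0, ∀ κ' ∈ 𝒦 j0,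
      mass (κ * h' * κ') (ind bad) ≤ c0 / 4 := by
    intro h' hh' κ hκ κ' hκ'
    refine (h.union (κ * h' * κ') (Finset.univ.filter fun x => x ∉ Θ) bad
      (fun x g => insert x Θ ⊆ big gap cl R g) fun g hg' => ?_).trans ?_
    · obtain ⟨x, hx1, hx2⟩ := (hbad g).mp hg'
      exact ⟨x, by simp [hx1], hx2⟩
    · have h1 : ∀ x ∈ (Finset.univ.filter fun x => x ∉ Θ),
          mass (κ * h' * κ') (ind fun g => insert x Θ ⊆ big gap cl R g) ≤ 2 * δ := by
        intro x hx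
        rw [Finset.mem_filter] at hx
        refine (hF0 κ hκ κ' hκ' h' _).trans ?_
        have h2 : mass h' (ind fun g => ∃ a ∈ F0, ∃ b ∈ F0, insert x Θ ⊆ big gap cl R (a * g * b)) ≤
            mass h' (ind fun g => insert x Θ ⊆ big gap cl (Rx x) g) := by
          refine h.ind_mono h' fun g hg' => ?_
          obtain ⟨a, ha, b', hb', hab⟩ := hg'
          intro c hc
          obtain ⟨i, hi1, hi2⟩ := mem_big.mp (hab hc)
          refine mem_big.mpr ⟨i, hi1, ?_⟩
          have h3 := (abs_le.mp (hCq a b' i g)).2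
          have h4 := hCF a ha b' hb'
          have h5 := hR' x
          linarith
        have h3 := h2.trans (hRx x hx.2 h' hh')
        have h4 := mul_le_mul_of_nonneg_left h3 hC1
        have h5 : C1 * δ1 ≤ δ := by
          rw [hδ1, mul_div_assoc', div_le_iff₀ (by positivity)]
          nlinarith
        linarith
      refine (Finset.sum_le_sum h1).trans ?_
      rw [Finset.sum_const, nsmul_eq_mul]
      refine le_trans ?_ hδ
      have : (((Finset.univ : Finset (Fin r)).filter fun x => x ∉ Θ).card : ℝ) ≤ r := by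
        have := Finset.card_le_univ ((Finset.univ : Finset (Fin r)).filter fun x => x ∉ Θ)
        rw [Fintype.card_fin] at this
        exact_mod_cast this
      gcongr
  obtain ⟨c, hcpos, hfam⟩ := fam_of_geo hg hθgeo hU R
  have hk1 : ∀ k : ℕ, (0 : ℝ) < (k : ℝ) + 1 := fun k => by positivity
  obtain ⟨χ, hχ⟩ : ∃ χ : ℕ → Γ → ℝ, ∀ k g, χ k g = (up gap θ ((k : ℝ) + 1) g) ^ 2 :=
    ⟨_, fun _ _ => rfl⟩
  have hχ01 : ∀ k g, 0 ≤ χ k g ∧ χ k g ≤ 1 := by
    intro k g
    rw [hχ]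
    have := up_mem gap θ ((k : ℝ) + 1) g
    exact ⟨sq_nonneg _, pow_le_one₀ this.1 this.2⟩
  have hχabs : ∀ k g, |χ k g| ≤ 1 := fun k g => by
    rw [abs_of_nonneg (hχ01 k g).1]; exact (hχ01 k g).2
  have hχr : ∀ u : Γ, Usm U (fun k g => χ k (g * u) - χ k g) := by
    intro u δ' hδ'
    obtain ⟨C, hC0, hC⟩ := hg.right u
    filter_upwards [tendsto_div_nat ((Fintype.card J : ℝ) * C) hU (half_pos hδ')] with k hk g
    have h1 := up_lip (θ := θ) (h := g * u) (g := g) (hk1 k) hC0 fun j => hC j g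
    rw [mul_div_assoc'] at h1
    have h2 := up_mem gap θ ((k : ℝ) + 1) g
    have h3 := up_mem gap θ ((k : ℝ) + 1) (g * u)
    rw [hχ, hχ]
    have e : up gap θ ((k : ℝ) + 1) (g * u) ^ 2 - up gap θ ((k : ℝ) + 1) g ^ 2 =
        (up gap θ ((k : ℝ) + 1) (g * u) - up gap θ ((k : ℝ) + 1) g) *
        (up gap θ ((k : ℝ) + 1) (g * u) + up gap θ ((k : ℝ) + 1) g) := by ring
    rw [e, abs_mul]
    have h4 : |up gap θ ((k : ℝ) + 1) (g * u) + up gap θ ((k : ℝ) + 1) g| ≤ 2 := by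
      rw [abs_of_nonneg (by linarith)]; linarith
    calc _ ≤ (δ' / 2) * 2 := mul_le_mul (h1.trans hk) h4 (abs_nonneg _) (by positivity)
      _ = δ' := by ring
  -- the pairing lemma for `p` elements
  obtain ⟨A, hA⟩ := h.pairF
  obtain ⟨c2, hc2, hc20⟩ : ∃ c2 : ℝ, c2 = c * (c0 / 2) ∧ 0 < c2 := ⟨_, rfl, by positivity⟩
  have hmain : ∀ p : ℕ, (p : ℝ) * c2 ≤ A * Real.sqrt p := by
    intro p
    obtain ⟨N, κ, κ', hκ, hκ', hping⟩ := hch.ping j0 p
    have hwu : ∀ k l, w k * (κ l * b j0 N * κ' l) = (κ l * b j0 N * κ' l) * w k := by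
      intro k l
      have e1 := (hwH k).comm_K hch j0 (by rw [hj0]) (κ l) (hκ l)
      have e2 := (hwH k).comm_K hch j0 (by rw [hj0]) (κ' l) (hκ' l)
      have e3 := (hwH k).comm_b hch j0 (by rw [hj0]) N
      calc w k * (κ l * b j0 N * κ' l) = (w k * κ l) * b j0 N * κ' l := by group
        _ = κ l * (w k * b j0 N) * κ' l := by rw [e1]; group
        _ = κ l * b j0 N * (w k * κ' l) := by rw [e3]; group
        _ = _ := by rw [e2]; group
    refine hA p _ hping U w hwu c2 hc20 fun S ε' hε' => ?_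
    obtain ⟨B, F, H, hBFH, hlow⟩ := hfam S ε' hε'
    refine ⟨B, F, H, hBFH, fun l => ?_⟩
    have hinv := h.inv U w (κ l * b j0 N * κ' l) (fun k => hwu k l) χ hχ01 hχr
    have hinv' : ∀ᶠ k in U,
        |mass (w k * (κ l * b j0 N * κ' l)) (χ k) - mass (w k) (χ k)| < c0 / 4 := by
      have := Metric.tendsto_nhds.mp hinv (c0 / 4) (by positivity)
      filter_upwards [this] with k hk
      rwa [Real.dist_eq, sub_zero] at hk
    filter_upwards [hinv', hlow, eventually_nat_ge R hU] with k hk3 hk4 hk5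
    obtain ⟨x, hx⟩ : ∃ x : 𝔾, x = w k * (κ l * b j0 N * κ' l) := ⟨_, rfl⟩
    rw [← hx] at hk3 ⊢
    have h1 : c0 ≤ mass (w k) (χ k) := by
      refine (hwm k).trans (h.mono (w k) _ _ 1 (fun g => abs_ind_le _ g) (hχabs k) fun g => ?_)
      by_cases hsub : Θ ⊆ big gap cl (ρ k) g
      · rw [ind_pos (P := fun g => Θ ⊆ big gap cl (ρ k) g) hsub, hχ,
          up_eq_one (hk1 k) (hlarge k g hsub), one_pow]
      · rw [ind_neg (P := fun g => Θ ⊆ big gap cl (ρ k) g) hsub]
        exact (hχ01 k g).1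
    have h2 : 3 / 4 * c0 ≤ mass x (χ k) := by
      have := (abs_lt.mp hk3).1
      linarith
    have h3 : mass x (ind bad) ≤ c0 / 4 := by
      have e : x = κ l * (w k * b j0 N) * κ' l := by
        have e1 := (hwH k).comm_K hch j0 (by rw [hj0]) (κ l) (hκ l)
        rw [hx]
        calc w k * (κ l * b j0 N * κ' l) = (w k * κ l) * b j0 N * κ' l := by group
          _ = _ := by rw [e1]; group
      rw [e]
      refine hbadm _ ?_ (κ l) (hκ l) (κ' l) (hκ' l)
      rw [hj0]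
      exact HS.step hj N (hwH k)
    obtain ⟨FH, hFH⟩ : ∃ FH : Γ → ℝ, ∀ g, FH g = ∑ b ∈ B, F k b g * H k b g := ⟨_, fun _ => rfl⟩
    have hFH0 : ∀ g, 0 ≤ FH g := fun g => by
      rw [hFH]
      exact Finset.sum_nonneg fun b _ => mul_nonneg (hBFH.nonnegF _ _ _) (hBFH.nonnegH _ _ _)
    have hFH1 : ∀ g, FH g ≤ 1 := fun g => by
      rw [hFH]
      have h5 : ∀ b ∈ B, F k b g * H k b g ≤ 1 / 2 * F k b g ^ 2 + 1 / 2 * H k b g ^ 2 := by
        intro b _
        nlinarith [sq_nonneg (F k b g - H k b g)]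
      refine (Finset.sum_le_sum h5).trans ?_
      rw [Finset.sum_add_distrib, ← Finset.mul_sum, ← Finset.mul_sum]
      have := hBFH.sumF k g
      have := hBFH.sumH k g
      linarith
    have hmono : c * mass x (χ k) ≤ mass x FH + c * mass x (ind bad) := by
      have hb1 : ∀ g, |c * χ k g| ≤ 1 + c := fun g => by
        rw [abs_mul, abs_of_pos hcpos]
        have := hχabs k g
        nlinarith
      have hb2 : ∀ g, |FH g| ≤ 1 + c := fun g => by
        rw [abs_of_nonneg (hFH0 g)]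
        have := hFH1 g
        linarith
      have hb3 : ∀ g, |c * ind bad g| ≤ 1 + c := fun g => by
        rw [abs_mul, abs_of_pos hcpos]
        have := abs_ind_le bad g
        nlinarith
      rw [← h.smul _ _ 1 c (hχabs k), ← h.smul _ _ 1 c (fun g => abs_ind_le _ g),
        ← h.add _ _ _ (1 + c) hb2 hb3]
      refine h.mono _ _ _ (2 * (1 + c)) (fun g => ?_) (fun g => ?_) (fun g => ?_)
      · have := hb1 g
        linarith [abs_nonneg (c * χ k g)]
      · refine (abs_add_le _ _).trans ?_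
        have := hb2 g
        have := hb3 g
        linarith
      · by_cases hu : up gap θ ((k : ℝ) + 1) g = 0
        · rw [hχ, hu, zero_pow two_ne_zero, mul_zero]
          exact add_nonneg (hFH0 g) (mul_nonneg hcpos.le (ind_nonneg _ g))
        · have hup := up_ne (hk1 k) hu
          by_cases hb : ∀ j, j ∉ θ → gap j g ≤ R
          · have h6 := hk4 g hb
            rw [← hFH, ← hχ] at h6
            have := mul_nonneg hcpos.le (ind_nonneg bad g)
            linarith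
          · push Not at hb
            obtain ⟨i, hi1, hi2⟩ := hb
            have hbg : bad g := by
              rw [hbad]
              refine ⟨cl i, fun h => hi1 ((hmemθ i).mpr h), ?_⟩
              intro y hy
              rw [Finset.mem_insert] at hy
              rcases hy with rfl | hy
              · exact mem_big.mpr ⟨i, rfl, hi2.le⟩
              · obtain ⟨i', hi'⟩ := hclass y hy
                exact mem_big.mpr ⟨i', hi',
                  hk5.trans (hup i' ((hmemθ i').mpr (by rw [hi']; exact hy)))⟩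
            rw [ind_pos (P := bad) hbg]
            have := (hχ01 k g).2
            have := hFH0 g
            nlinarith
    have e : (fun g => ∑ b ∈ B, F k b g * H k b g) = FH := by funext g; rw [hFH]
    rw [e, hc2]
    nlinarith
  -- `p` large
  obtain ⟨n, hn⟩ := exists_nat_gt (|A| / c2)
  have h1 := hmain ((n + 1) ^ 2)
  have h2 : Real.sqrt (((n + 1) ^ 2 : ℕ) : ℝ) = (n : ℝ) + 1 := by
    push_cast
    exact Real.sqrt_sq (by positivity)
  rw [h2] at h1
  push_cast at h1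
  have h3 : |A| < n * c2 := by rwa [div_lt_iff₀ hc20] at hn
  have h4 : A ≤ |A| := le_abs_self A
  have h5 : (0 : ℝ) ≤ n := by positivity
  nlinarith [mul_pos (show (0 : ℝ) < (n : ℝ) + 1 by positivity) hc20]


/-- A chain which starts with `n` classes after `j` steps. -/
theorem ttd_le (h : SharpData t mass Cpt Ping) (hg : Gaps gap cl)
    (hgeo : ∀ θ : Finset J, θ.Nonempty → (∀ i ∈ θ, ∀ j, cl i = cl j → j ∈ θ) →
      (∀ i ∈ θ, cl i ≠ d) → Geo gap θ)
    (hdead : Dead mass gap cl b d) (hch : GChain Cpt Ping m b 𝒦) {j n : ℕ} (hj : j ≤ m) (hT : TTd mass gap cl b d j n) :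
    n + (m - j) + 1 ≤ r := by
  have hTT : ∀ i, j + i ≤ m → TTd mass gap cl b d (j + i) (n + i) := by
    intro i
    induction i with
    | zero => intro _; exact hT
    | succ i ih =>
      intro hi
      have h1 : j + i < m := by omega
      exact ttd_step h hg hgeo hdead hch h1 (ih h1.le)
  obtain ⟨c, Θ, _, h2, hd, _⟩ := hTT (m - j) (by omega)
  have h3 : Θ.card < r := by
    have := Finset.card_lt_card (Finset.ssubset_univ_iff.2 fun h3 : Θ = Finset.univ =>
      hd (h3 ▸ Finset.mem_univ d))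
    rwa [Finset.card_univ, Fintype.card_fin] at this
  omega

/-- If the number of the live classes is smaller than `n + (m - j)`, the mass where `n` live classes
are large tends to `0`, uniformly along `HS b j`. -/
theorem few_big_d (h : SharpData t mass Cpt Ping) (hg : Gaps gap cl)
    (hgeo : ∀ θ : Finset J, θ.Nonempty → (∀ i ∈ θ, ∀ j, cl i = cl j → j ∈ θ) →
      (∀ i ∈ θ, cl i ≠ d) → Geo gap θ)
    (hdead : Dead mass gap cl b d) (hch : GChain Cpt Ping m b 𝒦) {j n : ℕ} (hj : j ≤ m) (hn : r ≤ n + (m - j)) {ε : ℝ}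
    (hε : 0 < ε) : ∃ R : ℝ, ∀ w, HS b j w →
      mass w (ind fun g => n ≤ ((big gap cl R g).erase d).card) ≤ ε := by
  classical
  by_contra hcon
  push Not at hcon
  -- a lower bound for one set of classes
  obtain ⟨δ, hδ⟩ : ∃ δ : ℝ, δ = ε / (2 ^ r + 1) := ⟨_, rfl⟩
  have hδ0 : 0 < δ := by rw [hδ]; positivity
  have key : ∀ R : ℝ, ∃ Θ : Finset (Fin r), (n ≤ Θ.card ∧ d ∉ Θ) ∧ ∃ w, HS b j w ∧
      δ ≤ mass w (ind fun g => Θ ⊆ big gap cl R g) := by
    intro R
    obtain ⟨w, hw, h1⟩ := hcon R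
    by_contra hno
    push Not at hno
    have h2 := h.union w (Finset.univ.filter fun Θ : Finset (Fin r) => n ≤ Θ.card ∧ d ∉ Θ)
      (fun g => n ≤ ((big gap cl R g).erase d).card) (fun Θ g => Θ ⊆ big gap cl R g)
      fun g hg' => ⟨(big gap cl R g).erase d, by simpa using hg', Finset.erase_subset _ _⟩
    have h3 : ∑ Θ ∈ Finset.univ.filter (fun Θ : Finset (Fin r) => n ≤ Θ.card ∧ d ∉ Θ),
        mass w (ind fun g => Θ ⊆ big gap cl R g) ≤
        ∑ Θ ∈ Finset.univ.filter (fun Θ : Finset (Fin r) => n ≤ Θ.card ∧ d ∉ Θ), δ := by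
      refine Finset.sum_le_sum fun Θ hΘ => ?_
      rw [Finset.mem_filter] at hΘ
      exact (hno Θ hΘ.2 w hw).le
    have h4 : ((Finset.univ.filter fun Θ : Finset (Fin r) => n ≤ Θ.card ∧ d ∉ Θ).card : ℝ) ≤
        2 ^ r := by
      have h5 := Finset.card_le_univ
        (Finset.univ.filter fun Θ : Finset (Fin r) => n ≤ Θ.card ∧ d ∉ Θ)
      rw [Fintype.card_finset, Fintype.card_fin] at h5
      exact_mod_cast h5
    rw [Finset.sum_const, nsmul_eq_mul] at h3
    have h6 : ((Finset.univ.filter fun Θ : Finset (Fin r) => n ≤ Θ.card ∧ d ∉ Θ).card : ℝ) * δ ≤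
        2 ^ r * δ := mul_le_mul_of_nonneg_right h4 hδ0.le
    have h7 : 2 ^ r * δ < ε := by
      rw [hδ, mul_div_assoc', div_lt_iff₀ (by positivity)]
      nlinarith
    linarith
  -- one set of classes works for all `R`
  choose Θ hΘ w hw hm using fun k : ℕ => key k
  obtain ⟨Θ0, hΘ0⟩ := Finite.exists_infinite_fiber Θ
  have hinf : (Θ ⁻¹' {Θ0}).Infinite := Set.infinite_coe_iff.1 hΘ0
  obtain ⟨k0, hk0⟩ := hinf.nonempty
  have hk0' : Θ k0 = Θ0 := hk0
  have hT : TTd mass gap cl b d j n := by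
    refine ⟨δ, Θ0, hδ0, by rw [← hk0']; exact (hΘ k0).1, by rw [← hk0']; exact (hΘ k0).2,
      fun R => ?_⟩
    obtain ⟨k1, hk1⟩ := exists_nat_ge R
    obtain ⟨k, hk, hk2⟩ := hinf.exists_gt k1
    have hk' : Θ k = Θ0 := hk
    refine ⟨w k, hw k, (hm k).trans ?_⟩
    rw [hk']
    refine h.ind_mono (w k) fun g hg' => hg'.trans (big_anti ?_ g)
    have : (k1 : ℝ) ≤ k := by exact_mod_cast hk2.le
    linarith
  have := ttd_le h hg hgeo hdead hch hj hT
  omega

/-- **Start at two.** Along the first direction of a chain whose length is at least the number of the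
live classes, at most one live class of gaps is unbounded. -/
theorem start2_d (h : SharpData t mass Cpt Ping) (hg : Gaps gap cl)
    (hgeo : ∀ θ : Finset J, θ.Nonempty → (∀ i ∈ θ, ∀ j, cl i = cl j → j ∈ θ) →
      (∀ i ∈ θ, cl i ≠ d) → Geo gap θ)
    (hdead : Dead mass gap cl b d) (hch : GChain Cpt Ping m b 𝒦) (hrm : r ≤ m + 1) (hm : 0 < m) {ε : ℝ} (hε : 0 < ε) :
    ∃ R : ℝ, ∀ N, mass (b ⟨0, hm⟩ N) (ind fun g => 2 ≤ ((big gap cl R g).erase d).card) ≤ ε := by
  obtain ⟨R, hR⟩ := few_big_d h hg hgeo hdead hch (j := 1) (n := 2) hm (by omega) hε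
  refine ⟨R, fun N => ?_⟩
  have h1 := hR _ (HS.step hm N HS.one)
  rwa [one_mul] at h1

end chain

end Vale.Agent.P092.H305.Mx
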