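import Vale.Agent.P092.H337.NGl
import Vale.Agent.P092.H305.Mx.Start

/-!
P092, [MIX] (helper305): the regular sets of the pictures with a discrete part and a passive part:
at least two live gaps large, or the passive size large; small along every wall when the passive
size is tight along the source factors.
-/

set_option linter.all false

open scoped InnerProductSpace ENNReal LinearAlgebra.Projectivization
open Filter Topology ContinuousLinearMap MeasureTheory TopologicalSpace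

namespace Vale.Agent.P092.H305.Mx

open Vale.Agent.P092.H761 (SharpData GChain HS big mem_big Geo Gaps CovFam)
open Vale.Agent.P092.H515 (GSys)
open Vale.Agent.P092.H538 (ind ind_pos ind_neg ind_nonneg abs_ind_le)
open Vale.Agent.P092.H776.NG (Bg Bg_antitone Bg_trans gsys_fam bw_eq_tor)

/-! ### Quasi-invariant sizes -/

section quasi

variable {Γ : Type} [Group Γ]

/-- quasi-invariant -/
def Quasi (s : Γ → ℝ) : Prop := ∀ a b : Γ, ∃ C : ℝ, ∀ g, |s (a * g * b) - s g| ≤ C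

omit [Group Γ] in
/-- the bounded sets of `s` are bounded for `s'` -/
def BLe (s s' : Γ → ℝ) : Prop := ∀ R : ℝ, ∃ R' : ℝ, ∀ g, s g ≤ R → s' g ≤ R'

theorem exists_quasi {s : Γ → ℝ}
    (mul : ∀ R : ℝ, ∃ R' : ℝ, ∀ x y, s x ≤ R → s y ≤ R → s (x * y) ≤ R') :
    ∃ s' : Γ → ℝ, Quasi s' ∧ BLe s s' ∧ BLe s' s := by
  classical
  choose φ hφ using mul
  obtain ⟨a, ha0, ha⟩ : ∃ a : ℕ → ℝ, a 0 = 0 ∧ ∀ n, a (n + 1) = max (a n + 1) (φ (a n)) :=
    ⟨fun n => Nat.rec 0 (fun _ x => max (x + 1) (φ x)) n, rfl, fun _ => rfl⟩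
  have hstep : ∀ n, a n + 1 ≤ a (n + 1) := fun n => by rw [ha]; exact le_max_left _ _
  have hmono : Monotone a := monotone_nat_of_le_succ fun n => by linarith [hstep n]
  have hge : ∀ n : ℕ, (n : ℝ) ≤ a n := fun n => by
    induction n with
    | zero => rw [ha0, Nat.cast_zero]
    | succ n ih => rw [Nat.cast_succ]; linarith [hstep n]
  have hex : ∀ g, ∃ n, s g ≤ a n := fun g => by
    obtain ⟨n, hn⟩ := exists_nat_ge (s g)
    exact ⟨n, hn.trans (hge n)⟩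
  obtain ⟨f, hf⟩ : ∃ f : Γ → ℕ, ∀ g, s g ≤ a (f g) ∧ ∀ n, s g ≤ a n → f g ≤ n :=
    ⟨fun g => Nat.find (hex g), fun g => ⟨Nat.find_spec (hex g), fun n hn => Nat.find_min' _ hn⟩⟩
  have h2 : ∀ x y, f (x * y) ≤ max (f x) (f y) + 1 := fun x y => by
    refine (hf (x * y)).2 _ ?_
    have h3 := hφ (a (max (f x) (f y))) x y ((hf x).1.trans (hmono (le_max_left _ _)))
      ((hf y).1.trans (hmono (le_max_right _ _)))
    rw [ha]
    exact h3.trans (le_max_right _ _)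
  have h3 : ∀ x g y, f (x * g * y) ≤ f g + (f x + f y + 2) := fun x g y => by
    have h4 := h2 (x * g) y
    have h5 := h2 x g
    have h6 : max (f x) (f g) ≤ f x + f g := max_le (Nat.le_add_right _ _) (Nat.le_add_left _ _)
    have h7 : max (f (x * g)) (f y) ≤ f (x * g) + f y :=
      max_le (Nat.le_add_right _ _) (Nat.le_add_left _ _)
    omega
  refine ⟨fun g => (f g : ℝ), fun x y => ⟨((f x + f y + 2 : ℕ) : ℝ) +
    ((f x⁻¹ + f y⁻¹ + 2 : ℕ) : ℝ), fun g => ?_⟩, fun R => ?_, fun R => ?_⟩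
  · have h4 := h3 x g y
    have h5 := h3 x⁻¹ (x * g * y) y⁻¹
    have e : x⁻¹ * (x * g * y) * y⁻¹ = g := by group
    rw [e] at h5
    have h6 : (f (x * g * y) : ℝ) ≤ f g + ((f x + f y + 2 : ℕ) : ℝ) := by exact_mod_cast h4
    have h7 : (f g : ℝ) ≤ f (x * g * y) + ((f x⁻¹ + f y⁻¹ + 2 : ℕ) : ℝ) := by exact_mod_cast h5
    have h8 : (0 : ℝ) ≤ ((f x + f y + 2 : ℕ) : ℝ) := Nat.cast_nonneg _
    have h9 : (0 : ℝ) ≤ ((f x⁻¹ + f y⁻¹ + 2 : ℕ) : ℝ) := Nat.cast_nonneg _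
    rw [abs_le]
    constructor <;> linarith
  · obtain ⟨n, hn⟩ := exists_nat_ge R
    refine ⟨n, fun g hg => ?_⟩
    have h4 := (hf g).2 n (hg.trans (hn.trans (hge n)))
    change (f g : ℝ) ≤ n
    exact_mod_cast h4
  · obtain ⟨n, hn⟩ := exists_nat_ge R
    refine ⟨a n, fun g hg => (hf g).1.trans (hmono ?_)⟩
    have h4 : (f g : ℝ) ≤ n := le_trans hg hn
    exact_mod_cast h4

variable {Γ' : Type} [Group Γ'] {p : Γ →* Γ'}

theorem Pas.congr {s s' : Γ → ℝ} (h : Pas p s) (h1 : BLe s s') (h2 : BLe s' s) : Pas p s' where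
  surj := h.surj
  mul R := by
    obtain ⟨R1, hR1⟩ := h2 R
    obtain ⟨R2, hR2⟩ := h.mul R1
    obtain ⟨R3, hR3⟩ := h1 R2
    exact ⟨R3, fun x y hx hy => hR3 _ (hR2 x y (hR1 x hx) (hR1 y hy))⟩
  inv R := by
    obtain ⟨R1, hR1⟩ := h2 R
    obtain ⟨R2, hR2⟩ := h.inv R1
    obtain ⟨R3, hR3⟩ := h1 R2
    exact ⟨R3, fun x hx => hR3 _ (hR2 x (hR1 x hx))⟩
  ker R := by
    obtain ⟨R1, hR1⟩ := h2 R
    exact (h.ker R1).subset fun n hn => ⟨hn.1, hR1 n hn.2⟩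
  cob := by
    obtain ⟨C₀, hC₀⟩ := h.cob
    obtain ⟨R1, hR1⟩ := h1 C₀
    refine ⟨R1, fun y => ?_⟩
    obtain ⟨n, hn1, hn2⟩ := hC₀ y
    exact ⟨n, hn1, hR1 _ hn2⟩

end quasi

/-! ### Gaps with a passive size -/

section gaps

variable {Γ Γ' J : Type} [Group Γ] [Group Γ'] {p : Γ →* Γ'} {gap : J → Γ' → ℝ} {s₀ : Γ → ℝ}
  {r : ℕ}

/-- the classes, the last one for the passive size -/
def clO (cl : J → Fin r) : Option J → Fin (r + 1)
  | some j => (cl j).castSucc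
  | none => Fin.last r

theorem clO_ne {cl : J → Fin r} {x : Option J} (h : clO cl x ≠ Fin.last r) : x ≠ none := by
  rintro rfl
  exact h rfl

theorem gapsP {cl : J → Fin r} (hP : Pas p s₀) (hq : Quasi s₀) (hg : Gaps gap cl) :
    Gaps (gp p gap s₀) (clO cl) where
  quasi s t := by
    obtain ⟨C, hC⟩ := hg.quasi (p s) (p t)
    obtain ⟨C', hC'⟩ := hq s t
    refine ⟨max C C', fun j g => ?_⟩
    cases j with
    | none => exact (hC' g).trans (le_max_right _ _)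
    | some j =>
      change |gap j (p (s * g * t)) - gap j (p g)| ≤ _
      rw [map_mul, map_mul]
      exact (hC j (p g)).trans (le_max_left _ _)
  fin R := by
    classical
    refine (hP.fins (hg.fin R).toFinset R).subset fun g hg' => ⟨?_, hg' none⟩
    rw [Set.Finite.mem_toFinset]
    exact fun j => hg' (some j)
  comp R := by
    obtain ⟨R', hR'⟩ := hg.comp R
    refine ⟨max R' R, fun i j hij g h => ?_⟩
    cases i with
    | none =>
      cases j with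
      | none => exact h.trans (le_max_right _ _)
      | some j => exact absurd hij.symm (Fin.castSucc_lt_last (cl j)).ne
    | some i =>
      cases j with
      | none => exact absurd hij (Fin.castSucc_lt_last (cl i)).ne
      | some j => exact (hR' i j (Fin.castSucc_injective r hij) (p g) h).trans (le_max_left _ _)

end gaps

/-! ### Walls -/

section abs

variable {Γ Γ' 𝔾 : Type} [Group Γ] [DecidableEq Γ] [Group Γ'] [Group 𝔾] {t : ℝ}
  {mass : 𝔾 → (Γ → ℝ) → ℝ} {Cpt : Set 𝔾 → Prop} {Ping : (p : ℕ) → (Fin p → 𝔾) → Prop}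
  {m : ℕ} {b : Fin m → ℕ → 𝔾} {𝒦 : Fin m → Set 𝔾} {J : Type} [Fintype J] {p : Γ →* Γ'}
  {s₀ : Γ → ℝ}

/-- the regular set -/
def Bm (p : Γ →* Γ') (gap : J → Γ' → ℝ) (s₀ : Γ → ℝ) (R : ℝ) : Set Γ :=
  {g | p g ∈ Bg gap R ∨ R < s₀ g}

theorem nw_gsysM (h : SharpData t mass Cpt Ping) (hch : GChain Cpt Ping m b 𝒦) (hm : 0 < m)
    (hJ : Fintype.card J ≤ m) {gap : J → Γ' → ℝ} {w : Γ' → ℝ} (hs : GSys gap w)
    (hfin : ∀ R : ℝ, {g | w g ≤ R}.Finite) (hP : Pas p s₀) (hq : Quasi s₀)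
    (hdead : ∀ ε : ℝ, 0 < ε → ∃ R : ℝ, ∀ n h, HS b n h → mass h (ind fun g => R < s₀ g) ≤ ε)
    {ε : ℝ} (hε : 0 < ε) :
    ∃ R : ℝ, ∀ N, mass (b ⟨0, hm⟩ N) (ind fun g => g ∈ Bm p gap s₀ R) ≤ ε := by
  classical
  obtain ⟨cl, -⟩ : ∃ cl : J ≃ Fin (Fintype.card J), True := ⟨Fintype.equivFin J, trivial⟩
  have hg := gapsP hP hq (hs.gaps hfin (fun j : J => cl j)
    (fun R => ⟨R, fun i j hij g hg => by rw [← cl.injective hij]; exact hg⟩))
  have hD : Dead mass (gp p gap s₀) (clO fun j : J => cl j) b (Fin.last _) := by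
    intro ε hε
    obtain ⟨R, hR⟩ := hdead ε hε
    refine ⟨R + 1, fun n x hx => (h.ind_mono x fun g hg' => ?_).trans (hR n x hx)⟩
    obtain ⟨j, hj1, hj2⟩ := mem_big.1 hg'
    cases j with
    | none => exact lt_of_lt_of_le (lt_add_one R) hj2
    | some j => exact absurd hj1 (Fin.castSucc_lt_last (cl j)).ne
  obtain ⟨R, hR⟩ := start2_d h hg (fun θ _ _ hθ => by
    have e : θ = (θ.preimage some (Option.some_injective J).injOn).map
        ⟨some, Option.some_injective J⟩ := by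
      ext x
      rw [Finset.mem_map]
      constructor
      · intro hx
        cases x with
        | none => exact absurd rfl (clO_ne (hθ none hx))
        | some x => exact ⟨x, Finset.mem_preimage.2 hx, rfl⟩
      · rintro ⟨y, hy, rfl⟩
        exact Finset.mem_preimage.1 hy
    rw [e]
    exact geoP hP (hs.geo' hfin _)) hD hch (by simpa using hJ) hm (half_pos hε)
  obtain ⟨R₂, hR₂⟩ := hdead (ε / 2) (half_pos hε)
  refine ⟨max R R₂, fun N => ?_⟩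
  have h1 := h.union (b ⟨0, hm⟩ N) (Finset.univ : Finset Bool)
    (fun g => g ∈ Bm p gap s₀ (max R R₂))
    (fun c g => if c then 2 ≤ ((big (gp p gap s₀) (clO fun j : J => cl j) R g).erase
      (Fin.last _)).card else R₂ < s₀ g) fun g hg' => ?_
  · refine h1.trans ?_
    rw [Fintype.sum_bool]
    have h2 := hR N
    have h3 := hR₂ _ _ (HS.step hm N HS.one)
    rw [one_mul] at h3
    simp only [if_true, Bool.false_eq_true, if_false]
    linarith
  · rcases hg' with ⟨i, j, hij, h2, h3⟩ | h2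
    · refine ⟨true, Finset.mem_univ _, ?_⟩
      rw [if_pos rfl]
      refine Finset.one_lt_card.2 ⟨(cl i).castSucc, ?_, (cl j).castSucc, ?_, fun h => hij
        (cl.injective (Fin.castSucc_injective _ h))⟩
      · exact Finset.mem_erase.2 ⟨(Fin.castSucc_lt_last _).ne, mem_big.2 ⟨some i, rfl,
          (lt_of_le_of_lt (le_max_left _ _) h2).le⟩⟩
      · exact Finset.mem_erase.2 ⟨(Fin.castSucc_lt_last _).ne, mem_big.2 ⟨some j, rfl,
          (lt_of_le_of_lt (le_max_left _ _) h3).le⟩⟩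
    · refine ⟨false, Finset.mem_univ _, ?_⟩
      simp only [Bool.false_eq_true, if_false]
      exact lt_of_le_of_lt (le_max_right _ _) h2

end abs

/-! ### Regular sets in the row model -/

section rg

open Vale.Agent.P092.RC (GG YY PG ct)
open Vale.Agent.P092.SN (PH nm Adm bw)
open Vale.Agent.P092.H933 (LocK)
open Vale.Agent.P092.H160 (Ell2)
open Vale.Agent.P092.H432 (lx ARep)
open Vale.Agent.P092.H132 (massX)
open Vale.Agent.P092.H701 (HChain tor)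
open Vale.Agent.P092.H337.NG (RG)

variable {E : Type} [Group E] [TopologicalSpace E] [IsTopologicalGroup E] [LocallyCompactSpace E]
  [SecondCountableTopology E] [T2Space E] [MeasurableSpace E] [BorelSpace E]
  {Γ : Subgroup E} [DiscreteTopology Γ] [Countable Γ] [MeasurableSpace (E ⧸ Γ)]
  [BorelSpace (E ⧸ Γ)] {ν : Measure (E ⧸ Γ)} [IsProbabilityMeasure ν]
  (hν : ∀ g : E, ν.map (fun x => g • x) = ν)
  {Q ι' : Type} [Group Q] [Countable Q] [Fintype ι'] {t : ℝ}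
  {R : Γ → (Ell2 ((Γ × Q) × ι') →L[ℂ] Ell2 ((Γ × Q) × ι'))}
  {E0 : Set Γ → (Ell2 ((Γ × Q) × ι') →L[ℂ] Ell2 ((Γ × Q) × ι'))}

/-- the mass of a set -/
noncomputable def mX (hν : ∀ g : E, ν.map (fun x => g • x) = ν)
    (R : Γ → (Ell2 ((Γ × Q) × ι') →L[ℂ] Ell2 ((Γ × Q) × ι'))) (u : E) (A : Set Γ) : ℝ :=
  massX (H538.fst (H790.baseL (H85.cdat ν hν).μ (Γ × Q) ι')) (H790.Ri (H85.cdat ν hν) R) u
    (ind fun γ => γ ∈ A)

theorem nrm_chainM (hR : ARep t R) (hE : CovFam R E0)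
    (hl : ∀ A (x : Q), E0 A * lx ((1 : Γ), x) = lx ((1 : Γ), x) * E0 A) {m : ℕ}
    (Ch : HChain E m) (hm : 0 < m) {J : Type} [Fintype J] (hJ : Fintype.card J ≤ m)
    {Γ' : Type} [Group Γ'] {p : Γ →* Γ'} {s₀ : Γ → ℝ} {gap : J → Γ' → ℝ} {w : Γ' → ℝ}
    (hs : GSys gap w) (hfin : ∀ R : ℝ, {g | w g ≤ R}.Finite) (hP : Pas p s₀) (hq : Quasi s₀)
    {D : Submonoid E} (hD : ∀ x N, Ch.b x N ∈ D)
    (hdead : ∀ ε : ℝ, 0 < ε → ∃ r : ℝ, ∀ u ∈ D, mX hν R u {γ | r < s₀ γ} ≤ ε)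
    {ε : ℝ} (hε : 0 < ε) :
    ∃ r : ℝ, ∀ N, mX hν R (Ch.b ⟨0, hm⟩ N) (Bm p gap s₀ r) ≤ ε := by
  classical
  have hd := H761.sharpCoef Γ ν hν hR hE hl
  have hHS : ∀ n h, HS Ch.b n h → h ∈ D := by
    intro n h hh
    induction hh with
    | one => exact D.one_mem
    | step hj N hh ih => exact D.mul_mem ih (hD _ N)
  obtain ⟨r, hr⟩ := nw_gsysM hd (H261.gchain_of_hchain Ch) hm hJ hs hfin hP hq
    (fun ε hε => by
      obtain ⟨r, hr⟩ := hdead ε hε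
      exact ⟨r, fun n h hh => hr h (hHS n h hh)⟩) hε
  exact ⟨r, fun N => hr N⟩

theorem nrm_zpowersM (hR : ARep t R) (hE : CovFam R E0)
    (hl : ∀ A (x : Q), E0 A * lx ((1 : Γ), x) = lx ((1 : Γ), x) * E0 A) {m : ℕ}
    (Ch Ch' : HChain E m) (hm : 0 < m) {b : E} (hC : ∀ N, Ch.b ⟨0, hm⟩ N = b ^ N)
    (hC' : ∀ N, Ch'.b ⟨0, hm⟩ N = b⁻¹ ^ N) {J : Type} [Fintype J] (hJ : Fintype.card J ≤ m)
    {Γ' : Type} [Group Γ'] {p : Γ →* Γ'} {s₀ : Γ → ℝ} {gap : J → Γ' → ℝ} {w : Γ' → ℝ}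
    (hs : GSys gap w) (hfin : ∀ R : ℝ, {g | w g ≤ R}.Finite) (hP : Pas p s₀) (hq : Quasi s₀)
    {D : Submonoid E} (hD : ∀ x N, Ch.b x N ∈ D) (hD' : ∀ x N, Ch'.b x N ∈ D)
    (hdead : ∀ ε : ℝ, 0 < ε → ∃ r : ℝ, ∀ u ∈ D, mX hν R u {γ | r < s₀ γ} ≤ ε)
    {ε : ℝ} (hε : 0 < ε) :
    ∃ r : ℝ, ∀ u ∈ Subgroup.zpowers b, mX hν R u (Bm p gap s₀ r) ≤ ε := by
  classical
  have hd := H761.sharpCoef Γ ν hν hR hE hl
  obtain ⟨r, hr⟩ := nrm_chainM hν hR hE hl Ch hm hJ hs hfin hP hq hD hdead hε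
  obtain ⟨r', hr'⟩ := nrm_chainM hν hR hE hl Ch' hm hJ hs hfin hP hq hD' hdead hε
  have mono : ∀ (r₁ r₂ : ℝ) (u : E), r₁ ≤ r₂ →
      mX hν R u (Bm p gap s₀ r₂) ≤ mX hν R u (Bm p gap s₀ r₁) := fun r₁ r₂ u h =>
    hd.ind_mono u (P := fun γ => γ ∈ Bm p gap s₀ r₂) (Q := fun γ => γ ∈ Bm p gap s₀ r₁)
      fun γ hγ => hγ.imp (fun h1 => Bg_antitone gap h h1) fun h1 => lt_of_le_of_lt h h1
  refine ⟨max r r', ?_⟩
  rintro _ ⟨z, rfl⟩
  obtain ⟨N, rfl | rfl⟩ := z.eq_nat_or_neg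
  · have h0 := hr N
    rw [hC] at h0
    have h1 := (mono _ _ (b ^ N) (le_max_left r r')).trans h0
    simpa using h1
  · have h0 := hr' N
    rw [hC'] at h0
    have h1 := (mono _ _ (b⁻¹ ^ N) (le_max_right r r')).trans h0
    simpa using h1

variable {I : Type} [Fintype I] [DecidableEq I] {k : I → Type}
  [∀ i, NontriviallyNormedField (k i)] [∀ i, ProperSpace (k i)] {N : I → ℕ}
  {I' : Type} [Fintype I'] [DecidableEq I'] [Nonempty I'] {k' : I' → Type}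
  [∀ j, NontriviallyNormedField (k' j)] [∀ j, ProperSpace (k' j)] {N' : I' → ℕ}

/-- **Regular sets of a family of targets with a passive size**: at least two live gaps large, or
the passive size large; small along every wall of an admissible family of sources, if the passive
size is tight along a submonoid which contains the sources. -/
theorem exists_rgM (hR : ARep t R) (hE : CovFam R E0)
    (hl : ∀ A (x : Q), E0 A * lx ((1 : Γ), x) = lx ((1 : Γ), x) * E0 A)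
    {ι : ∀ i, GG (k i) (N i) →* E} {a a' : ∀ i, E →* PG (k i) (N i + 1)}
    (hA : ∀ i, Adm (ι i) (a i) (a' i))
    (hcomm : ∀ i j, i ≠ j → ∀ g h, Commute (ι i g) (ι j h)) {w : ∀ i, (k i)ˣ}
    (hw : ∀ i, ‖(w i : k i)‖ < 1) (hk' : ∀ j, LocK (k' j)) (hN' : ∀ j, 0 < N' j)
    (hNN : ∑ j, N' j ≤ ∑ i, N i) {Γ' : Type} [Group Γ'] {p : Γ →* Γ'} {s₀ : Γ → ℝ}
    (hP : Pas p s₀) {q : ∀ j, Γ' → GG (k' j) (N' j)} (hq : ∀ j, PH (q j))
    (fin : ∀ C : ℝ, {x : Γ' | ∀ j, nm (q j x) ≤ C}.Finite)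
    {D : Submonoid E} (hD : ∀ i g, ι i g ∈ D)
    (hdead : ∀ ε : ℝ, 0 < ε → ∃ r : ℝ, ∀ u ∈ D, mX hν R u {γ | r < s₀ γ} ≤ ε) :
    ∃ Br : ℝ → Set Γ, RG (fun j γ => q j (p γ)) Br ∧
      (∀ r : ℝ, ∃ r' : ℝ, ∀ γ, r' < s₀ γ → γ ∈ Br r) ∧ ∀ i, ∀ ε : ℝ, 0 < ε → ∃ r : ℝ,
        ∀ u ∈ Subgroup.zpowers (ι i (bw (w i))), mX hν R u (Br r) ≤ ε := by
  classical
  have hd := H761.sharpCoef Γ ν hν hR hE hl
  have hN : ∀ i, 0 < N i := fun i => by have := (hA i).hN; omega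
  obtain ⟨gap, W, hs, hfin, h1, h2, h3⟩ := gsys_fam hk' (fun j => by
    have := hN' j; omega) q hq fin
  obtain ⟨s₁, hs₁, h01, h10⟩ := exists_quasi hP.mul
  have hP₁ := hP.congr h01 h10
  refine ⟨Bm p gap s₁, ⟨fun r₁ r₂ h γ hγ => hγ.imp (fun h1 => Bg_antitone gap h h1)
    fun h1 => lt_of_le_of_lt h h1, fun γ r => ?_, fun j r => ?_, fun j r => ?_,
    fun i j hij r => ?_⟩, fun r => ?_, fun i ε hε => ?_⟩
  · obtain ⟨r₁, hr₁⟩ := Bg_trans hs (p γ) r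
    obtain ⟨C, hC⟩ := hs₁ γ⁻¹ 1
    refine ⟨max r₁ (r + C), fun g hg => hg.imp (fun h4 => ?_) fun h4 => ?_⟩
    · have h5 := hr₁ (p g) (Bg_antitone gap (le_max_left _ _) h4)
      rwa [map_mul, map_inv]
    · have h5 := (abs_le.1 (hC g)).1
      rw [mul_one] at h5
      have h6 := lt_of_le_of_lt (le_max_right _ _) h4
      linarith
  · obtain ⟨r', hr'⟩ := h1 j r
    exact ⟨r', fun γ a1 a2 => Or.inl (hr' (p γ) (by rwa [← H776.NG.G1_eq])
      (by rwa [← H776.NG.G2_eq]))⟩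
  · obtain ⟨r', hr'⟩ := h2 j r
    refine ⟨r', fun γ a1 a2 => Or.inl (hr' (p γ) ?_ ?_)⟩
    · have e : H337.NG.G1 (ct (q j (p γ))) = H337.NG.G1 (q j (p γ))⁻¹ := H337.NG.G1_ta (q j (p γ))
      rwa [← H776.NG.G1_inv_eq, ← e]
    · have e : H337.NG.G2 (ct (q j (p γ))) = H337.NG.G2 (q j (p γ))⁻¹ := H337.NG.G2_ta (q j (p γ))
      rwa [← H776.NG.G2_inv_eq, ← e]
  · obtain ⟨r', hr'⟩ := h3 i j hij r
    exact ⟨r', fun γ a1 a2 => Or.inl (hr' (p γ) a1 a2)⟩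
  · obtain ⟨r', hr'⟩ := h10 r
    refine ⟨r', fun γ hγ => Or.inr ?_⟩
    by_contra h4
    exact absurd (hr' γ (not_lt.1 h4)) (not_le.2 hγ)
  · have hw1 : ∀ i, 1 < ‖(((w i)⁻¹ : (k i)ˣ) : k i)‖ := fun i => by
      rw [Units.val_inv_eq_inv_val, norm_inv]
      exact one_lt_inv_iff₀.2 ⟨norm_pos_iff.2 (w i).ne_zero, hw i⟩
    obtain ⟨e, he, ⟨C, hC⟩, C', hC', hC''⟩ := H776.NE.exists_chE hN ι a (fun i => (hA i).cι)
      (fun i => (hA i).ca) (fun i => (hA i).comp) hcomm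
      (fun i => (((w i)⁻¹ : (k i)ˣ) : k i)) hw1 (fun i => Units.ne_zero _) i
    have hm : 0 < ∑ i, N i := lt_of_lt_of_le (hN i)
      (Finset.single_le_sum (f := N) (fun _ _ => Nat.zero_le _) (Finset.mem_univ i))
    have hJ : Fintype.card (Σ j, Fin (N' j + 1 - 1)) ≤ ∑ i, N i := by
      rw [Fintype.card_sigma]
      refine le_trans (le_of_eq (Finset.sum_congr rfl fun j _ => ?_)) hNN
      rw [Fintype.card_fin]
      omega
    have hDC : ∀ x N, C.b x N ∈ D := fun x N => by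
      rw [hC]
      exact D.pow_mem (hD _ _) N
    have hDC' : ∀ x N, C'.b x N ∈ D := fun x N => by
      rcases hC'' x N with h4 | h4
      · rw [h4]
        exact D.pow_mem (hD _ _) N
      · rw [h4, ← map_inv]
        exact D.pow_mem (hD _ _) N
    refine nrm_zpowersM hν hR hE hl C C' hm (b := ι i (SN.bw (w i))) (fun M => ?_)
      (fun M => ?_) hJ hs hfin hP₁ hs₁ hDC hDC' (fun ε hε => ?_) hε
    · rw [hC, he]
      change ι i (tor (N i) _ (⟨0, hN i⟩ : Fin (N i)).castSucc) ^ M = _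
      rw [bw_eq_tor]
      rfl
    · rw [hC', bw_eq_tor]
    · obtain ⟨r, hr⟩ := hdead ε hε
      obtain ⟨r', hr'⟩ := h01 r
      refine ⟨r', fun u hu => (hd.ind_mono u (P := fun γ => γ ∈ {γ | r' < s₁ γ})
        (Q := fun γ => γ ∈ {γ | r < s₀ γ}) fun γ hγ => ?_).trans (hr u hu)⟩
      by_contra h4
      exact absurd (hr' γ (not_lt.1 h4)) (not_le.2 hγ)

end rg

end Vale.Agent.P092.H305.Mx
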