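import Vale.Agent.P092.H725.SN.GK2

/-!
P092, [MIX] (helper305): `LeviGapK (1 : G)` (compact averages contract the complement of the fixed
vectors, a form of property (T)) passes to open subgroups of finite index and to quotients.
-/

set_option linter.all false

open scoped InnerProductSpace ENNReal
open Set Filter Topology ContinuousLinearMap

namespace Vale.Agent.P092.H305.Mx

open Vale.Agent.P092.H933 (URep fixedSub)
open Vale.Agent.P092.H725.SN (LeviGapK)

/-! ### Images -/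

theorem leviGapK_one_map {G Q : Type} [Group G] [TopologicalSpace G] [Group Q] [TopologicalSpace Q]
    (h : LeviGapK (1 : G)) (φ : G →* Q) (hφ : Continuous φ) (hs : Function.Surjective φ) :
    LeviGapK (1 : Q) := by
  intro 𝓗 _ _ _ σ hσ e he
  obtain ⟨C, hC, -, hl'⟩ := h 𝓗 (σ.comp φ) (hσ.comp φ hφ.continuousAt) e he
  refine ⟨φ '' C, hC.image hφ, fun l _ => Commute.one_right l, fun v hv => ?_⟩
  obtain ⟨p, c, l, h0, h1, h2, h3⟩ := hl' v fun η hη => hv η fun g => by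
    obtain ⟨x, rfl⟩ := hs g
    exact hη x
  exact ⟨p, c, fun i => φ (l i), h0, h1, fun i => mem_image_of_mem φ (h2 i), h3⟩

/-! ### Induced representations of a subgroup of finite index -/

section ind

variable {G : Type} [Group G] (H : Subgroup G)

/-- a section -/
noncomputable def sec (x : G ⧸ H) : G := x.out

theorem mk_sec (x : G ⧸ H) : (QuotientGroup.mk (sec H x) : G ⧸ H) = x := Quotient.out_eq' x

theorem coc_mem (g : G) (x : G ⧸ H) : (sec H x)⁻¹ * (g * sec H (g⁻¹ • x)) ∈ H := by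
  refine QuotientGroup.eq.1 ?_
  rw [mk_sec]
  have h1 : (QuotientGroup.mk (g * sec H (g⁻¹ • x)) : G ⧸ H) =
      g • (QuotientGroup.mk (sec H (g⁻¹ • x)) : G ⧸ H) := rfl
  rw [h1, mk_sec, smul_inv_smul]

/-- the cocycle -/
noncomputable def coc (g : G) (x : G ⧸ H) : H := ⟨_, coc_mem H g x⟩

theorem coe_coc (g : G) (x : G ⧸ H) :
    (coc H g x : G) = (sec H x)⁻¹ * (g * sec H (g⁻¹ • x)) := rfl

theorem coc_mul (g h : G) (x : G ⧸ H) :
    coc H (g * h) x = coc H g x * coc H h (g⁻¹ • x) := by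
  refine Subtype.ext ?_
  rw [Subgroup.coe_mul, coe_coc, coe_coc, coe_coc, mul_inv_rev, mul_smul]
  group

theorem coc_one (x : G ⧸ H) : coc H 1 x = 1 := by
  refine Subtype.ext ?_
  rw [coe_coc, inv_one, one_smul, one_mul, inv_mul_cancel]
  rfl

variable [Fintype (G ⧸ H)] {𝓗 : Type} [NormedAddCommGroup 𝓗] [InnerProductSpace ℂ 𝓗]

/-- the space of the induced representation -/
abbrev IH (_ : Subgroup G) [Fintype (G ⧸ H)] (𝓗 : Type) [NormedAddCommGroup 𝓗] : Type :=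
  PiLp 2 fun _ : G ⧸ H => 𝓗

variable (σ : H →* (𝓗 →L[ℂ] 𝓗))

/-- one operator -/
noncomputable def indL (g : G) : (PiLp 2 fun _ : G ⧸ H => 𝓗) →ₗ[ℂ] (PiLp 2 fun _ : G ⧸ H => 𝓗) where
  toFun f := WithLp.toLp 2 fun x => σ (coc H g x) (f (g⁻¹ • x))
  map_add' f f' := by
    ext x
    simp
  map_smul' c f := by
    ext x
    simp

theorem indL_apply (g : G) (f : PiLp 2 fun _ : G ⧸ H => 𝓗) (x : G ⧸ H) :
    indL H σ g f x = σ (coc H g x) (f (g⁻¹ • x)) := rfl

variable {σ} [TopologicalSpace G]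

theorem norm_indL (hσ : URep σ) (g : G) (f : PiLp 2 fun _ : G ⧸ H => 𝓗) :
    ‖indL H σ g f‖ = ‖f‖ := by
  have h1 : ‖indL H σ g f‖ ^ 2 = ‖f‖ ^ 2 := by
    rw [PiLp.norm_sq_eq_of_L2, PiLp.norm_sq_eq_of_L2]
    have h2 : ∀ x, ‖indL H σ g f x‖ ^ 2 = ‖f (g⁻¹ • x)‖ ^ 2 := fun x => by
      rw [indL_apply, hσ.iso]
    simp_rw [h2]
    exact Equiv.sum_comp (MulAction.toPerm (g⁻¹ : G)) fun x => ‖f x‖ ^ 2
  exact (pow_left_inj₀ (norm_nonneg _) (norm_nonneg _) two_ne_zero).1 h1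

/-- **The induced representation.** -/
noncomputable def indR (hσ : URep σ) :
    G →* ((PiLp 2 fun _ : G ⧸ H => 𝓗) →L[ℂ] (PiLp 2 fun _ : G ⧸ H => 𝓗)) where
  toFun g := (⟨indL H σ g, norm_indL H hσ g⟩ : (PiLp 2 fun _ : G ⧸ H => 𝓗) →ₗᵢ[ℂ]
    (PiLp 2 fun _ : G ⧸ H => 𝓗)).toContinuousLinearMap
  map_one' := by
    refine ContinuousLinearMap.ext fun f => ?_
    refine PiLp.ext fun x => ?_
    change σ (coc H 1 x) (f ((1 : G)⁻¹ • x)) = f x
    rw [coc_one, map_one, inv_one, one_smul]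
    rfl
  map_mul' g h := by
    refine ContinuousLinearMap.ext fun f => ?_
    refine PiLp.ext fun x => ?_
    change σ (coc H (g * h) x) (f ((g * h)⁻¹ • x)) =
      σ (coc H g x) (σ (coc H h (g⁻¹ • x)) (f (h⁻¹ • g⁻¹ • x)))
    rw [coc_mul, map_mul, mul_inv_rev, mul_smul]
    rfl

theorem indR_apply (hσ : URep σ) (g : G) (f : PiLp 2 fun _ : G ⧸ H => 𝓗) (x : G ⧸ H) :
    indR H hσ g f x = σ (coc H g x) (f (g⁻¹ • x)) := rfl

variable [IsTopologicalGroup G]

theorem indR_urep (ho : IsOpen (H : Set G)) (hσ : URep σ) : URep (indR H hσ) where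
  iso g f := norm_indL H hσ g f
  cont f := by
    have h1 : ∀ x : G ⧸ H, Tendsto (fun g => σ (coc H g x) (f (g⁻¹ • x))) (𝓝 1) (𝓝 (f x)) := by
      intro x
      obtain ⟨s, hs⟩ : ∃ s, s = sec H x := ⟨_, rfl⟩
      have hc : Continuous fun g : G => s⁻¹ * g * s := by fun_prop
      have hm : ∀ᶠ g in 𝓝 (1 : G), s⁻¹ * g * s ∈ H := by
        refine hc.continuousAt.eventually_mem (ho.mem_nhds ?_)
        rw [mul_one, inv_mul_cancel]
        exact H.one_mem
      have hfix : ∀ᶠ g in 𝓝 (1 : G), g⁻¹ • x = x := by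
        filter_upwards [hm] with g hg
        rw [inv_smul_eq_iff]
        have h2 : x = QuotientGroup.mk s := by rw [hs, mk_sec]
        have h3 : g • (QuotientGroup.mk s : G ⧸ H) = QuotientGroup.mk (g * s) := rfl
        rw [h2, h3]
        refine QuotientGroup.eq.2 ?_
        rwa [← mul_assoc]
      -- the cocycle tends to one
      have hco : Tendsto (fun g : G => coc H g x) (𝓝 1) (𝓝 1) := by
        rw [tendsto_subtype_rng]
        have h4 : Tendsto (fun g : G => s⁻¹ * g * s) (𝓝 1) (𝓝 1) := by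
          have := hc.tendsto 1
          rwa [mul_one, inv_mul_cancel] at this
        refine h4.congr' ?_
        filter_upwards [hfix] with g hg
        rw [coe_coc, hg, ← hs, mul_assoc]
      refine ((hσ.cont (f x)).comp hco).congr' ?_
      filter_upwards [hfix] with g hg
      rw [hg]
      rfl
    have h2 : Tendsto (fun g => WithLp.toLp 2 fun x => σ (coc H g x) (f (g⁻¹ • x))) (𝓝 1)
        (𝓝 (WithLp.toLp 2 fun x => f x)) :=
      ((PiLp.continuous_toLp 2 fun _ : G ⧸ H => 𝓗).tendsto _).comp (tendsto_pi_nhds.2 h1)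
    exact h2

end ind

theorem leviGapK_one_fi {G : Type} [Group G] [TopologicalSpace G] [IsTopologicalGroup G]
    (h : LeviGapK (1 : G)) (H : Subgroup G) (ho : IsOpen (H : Set G)) [H.FiniteIndex] :
    LeviGapK (1 : H) := by
  classical
  haveI : Fintype (G ⧸ H) := Subgroup.fintypeQuotientOfFiniteIndex
  intro 𝓗 _ _ _ σ hσ e he
  obtain ⟨n, hn⟩ : ∃ n : ℝ, n = Fintype.card (G ⧸ H) := ⟨_, rfl⟩
  have hn1 : 0 < n := by
    rw [hn]
    exact_mod_cast Fintype.card_pos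
  obtain ⟨C, hC, -, hl'⟩ := h (PiLp 2 fun _ : G ⧸ H => 𝓗) (indR H hσ) (indR_urep H ho hσ)
    (e / n) (div_pos he hn1)
  obtain ⟨x₀, hx₀⟩ : ∃ x₀ : G ⧸ H, x₀ = QuotientGroup.mk 1 := ⟨_, rfl⟩
  obtain ⟨s₀, hs₀⟩ : ∃ s₀, s₀ = sec H x₀ := ⟨_, rfl⟩
  have hs₀H : s₀ ∈ H := by
    have h1 : (QuotientGroup.mk s₀ : G ⧸ H) = QuotientGroup.mk 1 := by rw [hs₀, mk_sec, hx₀]
    have h2 := QuotientGroup.eq.1 h1
    rw [mul_one] at h2
    exact (inv_mem_iff (H := H)).1 h2
  have hcl : IsClosed (H : Set G) := H.isClosed_of_isOpen ho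
  refine ⟨⋃ x : G ⧸ H, (fun y : H => sec H x * y * s₀⁻¹) ⁻¹' C, ?_,
    fun l _ => Commute.one_right l, fun v hv => ?_⟩
  · refine isCompact_iUnion fun x => ?_
    have h1 : IsClosedEmbedding fun y : H => sec H x * (y : G) * s₀⁻¹ := by
      have h2 : IsClosedEmbedding ((Homeomorph.mulRight s₀⁻¹) ∘ (Homeomorph.mulLeft (sec H x)) ∘
          (Subtype.val : H → G)) :=
        (Homeomorph.mulRight s₀⁻¹).isClosedEmbedding.comp
          ((Homeomorph.mulLeft (sec H x)).isClosedEmbedding.comp hcl.isClosedEmbedding_subtypeVal)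
      exact h2
    exact h1.isCompact_preimage hC
  -- the function carried by one coset
  obtain ⟨f, hf⟩ : ∃ f : PiLp 2 fun _ : G ⧸ H => 𝓗, f = WithLp.toLp 2 (Pi.single x₀ v) := ⟨_, rfl⟩
  have hfx : ∀ x, f x = if x = x₀ then v else 0 := fun x => by
    rw [hf]
    change (Pi.single x₀ v : ∀ _ : G ⧸ H, 𝓗) x = _
    rw [Pi.single_apply]
  have hfn : ‖f‖ = ‖v‖ := by
    have h1 : ‖f‖ ^ 2 = ‖v‖ ^ 2 := by
      rw [PiLp.norm_sq_eq_of_L2]
      rw [Finset.sum_eq_single x₀ (fun x _ hx => by rw [hfx, if_neg hx, norm_zero]; norm_num)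
        fun h => absurd (Finset.mem_univ _) h, hfx, if_pos rfl]
    exact (pow_left_inj₀ (norm_nonneg _) (norm_nonneg _) two_ne_zero).1 h1
  have horth : ∀ η ∈ fixedSub (indR H hσ), ⟪η, f⟫_ℂ = 0 := by
    intro η hη
    rw [PiLp.inner_apply]
    rw [Finset.sum_eq_single x₀ (fun x _ hx => by rw [hfx, if_neg hx, inner_zero_right])
      fun h => absurd (Finset.mem_univ _) h, hfx, if_pos rfl]
    refine hv _ fun y => ?_
    have h1 := congrArg (fun F : PiLp 2 fun _ : G ⧸ H => 𝓗 => F x₀) (hη (s₀ * y * s₀⁻¹))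
    have h2 : indR H hσ (s₀ * y * s₀⁻¹) η x₀ =
        σ (coc H (s₀ * y * s₀⁻¹) x₀) (η ((s₀ * (y : G) * s₀⁻¹)⁻¹ • x₀)) := rfl
    have h3 : (s₀ * (y : G) * s₀⁻¹)⁻¹ • x₀ = x₀ := by
      rw [hx₀]
      change (QuotientGroup.mk ((s₀ * (y : G) * s₀⁻¹)⁻¹ * 1) : G ⧸ H) = _
      refine QuotientGroup.eq.2 ?_
      rw [mul_one, mul_one, inv_inv]
      exact H.mul_mem (H.mul_mem hs₀H y.2) (H.inv_mem hs₀H)
    have h4 : coc H (s₀ * y * s₀⁻¹) x₀ = y := by
      refine Subtype.ext ?_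
      rw [coe_coc, h3, ← hs₀]
      group
    have h5 : indR H hσ (s₀ * y * s₀⁻¹) η x₀ = η x₀ := h1
    rw [h2, h3, h4] at h5
    exact h5
  obtain ⟨p, c, l, h0, h1, h2, h3⟩ := hl' f horth
  have hval : ∀ (g : G) (x : G ⧸ H), indR H hσ g f x =
      if x = g • x₀ then σ (coc H g (g • x₀)) v else 0 := by
    intro g x
    rw [indR_apply, hfx]
    by_cases hx : x = g • x₀
    · rw [if_pos hx, if_pos (by rw [hx, inv_smul_smul]), hx]
    · rw [if_neg hx, if_neg (fun h => hx (by rw [← h, smul_inv_smul])), map_zero]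
  refine ⟨p, c, fun i => coc H (l i) (l i • x₀), h0, h1, fun i => ?_, ?_⟩
  · refine mem_iUnion.2 ⟨l i • x₀, ?_⟩
    change sec H (l i • x₀) * (coc H (l i) (l i • x₀) : G) * s₀⁻¹ ∈ C
    rw [coe_coc, inv_smul_smul, ← hs₀]
    have e : sec H (l i • x₀) * ((sec H (l i • x₀))⁻¹ * (l i * s₀)) * s₀⁻¹ = l i := by group
    rw [e]
    exact h2 i
  · obtain ⟨F, hF⟩ : ∃ F : PiLp 2 fun _ : G ⧸ H => 𝓗, F = ∑ i, (c i : ℂ) • indR H hσ (l i) f :=
      ⟨_, rfl⟩
    have hFx : ∀ x, F x = ∑ i, (c i : ℂ) • (if x = l i • x₀ then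
        σ (coc H (l i) (l i • x₀)) v else 0) := fun x => by
      rw [hF]
      have e : (∑ i, (c i : ℂ) • indR H hσ (l i) f) x = ∑ i, (c i : ℂ) • indR H hσ (l i) f x := by
        simp
      rw [e]
      exact Finset.sum_congr rfl fun i _ => by rw [hval]
    have hsum : ∑ i, (c i : ℂ) • σ (coc H (l i) (l i • x₀)) v = ∑ x, F x := by
      simp_rw [hFx]
      rw [Finset.sum_comm]
      refine Finset.sum_congr rfl fun i _ => ?_
      rw [← Finset.smul_sum]
      congr 1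
      rw [Finset.sum_ite_eq' Finset.univ (l i • x₀)]
      simp
    have hle : ∀ x, ‖F x‖ ≤ ‖F‖ := fun x => PiLp.norm_apply_le F x
    rw [hsum]
    refine (norm_sum_le _ _).trans ?_
    refine (Finset.sum_le_sum fun x _ => hle x).trans ?_
    rw [Finset.sum_const, nsmul_eq_mul, Finset.card_univ, ← hn]
    rw [← hF, hfn] at h3
    calc n * ‖F‖ ≤ n * (e / n * ‖v‖) := mul_le_mul_of_nonneg_left h3 hn1.le
      _ = e * ‖v‖ := by
        field_simp

end Vale.Agent.P092.H305.Mx
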